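import Crest.Agent.N337.Op.CE

/-!
# Row 337, move (b): abstract excision lemma

* `exc_con`: the word `E[·|η] E[·|κ] P_S Ê[·|X]` contracts mean-zero functions;
* `gas_res`, `gas_long`: the dilute gas of long loops;
* `kill_step`: one step of the killing path.
-/

set_option autoImplicit false
set_option linter.unusedSectionVars false

namespace Crest.Agent.N337.Op

open Finset

variable {Ω : Type} [Fintype Ω] [DecidableEq Ω] {μ : Ω → ℝ}

/-- `X` on `{X good}`, everything elsewhere. -/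
def hat {α : Type} (X : Ω → α) (gx : α → Prop) [DecidablePred gx] (ω : Ω) : α ⊕ Ω :=
  if gx (X ω) then Sum.inl (X ω) else Sum.inr ω

/-- the residual of `hat`: conditional variances on the good fibres only. -/
theorem res_hat_row {α : Type} [DecidableEq α] (hμ : ∀ ω, 0 ≤ μ ω) (X : Ω → α) (gx : α → Prop)
    [DecidablePred gx] {ω : Ω} (h : μ ω ≠ 0) :
    ce μ (hat X gx) ω = if gx (X ω) then cond μ X (X ω) else idk ω := by
  rw [ce_of_ne hμ h]
  funext ω'
  split_ifs with hg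
  · have e : ∀ x, hat X gx x = hat X gx ω ↔ X x = X ω := fun x => by
      unfold hat; rw [if_pos hg]
      split_ifs with hx
      · simp
      · simp only [false_iff]; intro e; exact hx (e ▸ hg)
    simp only [cond, mass, e]
  · have e : ∀ x, hat X gx x = hat X gx ω ↔ x = ω := fun x => by
      unfold hat; rw [if_neg hg]
      split_ifs with hx
      · simp only [false_iff]; intro e; exact hg (e ▸ hx)
      · simp
    simp only [cond, mass, e, sum_ite_eq', mem_univ, if_true, idk]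
    by_cases e' : ω' = ω
    · subst e'; simp [h]
    · simp [e', Ne.symm e']

lemma var_two_val {ρ v : Ω → ℝ} (hρ : Pr ρ) (s : Ω → Prop) [DecidablePred s] {p : ℝ}
    (hp : ex ρ (ind fun ω => ¬s ω) ≤ p) (h0 : ∀ ω, ¬s ω → v ω = 0)
    (h1 : ∀ ω ω', ρ ω ≠ 0 → ρ ω' ≠ 0 → s ω → s ω' → v ω = v ω') :
    var ρ v ≤ p * nsq ρ v := by
  have p0 : 0 ≤ p := (ex_nn hρ.nn (ind_nn _)).trans hp
  by_cases h : ∃ ω0, ρ ω0 ≠ 0 ∧ s ω0
  · obtain ⟨ω0, a0, s0⟩ := h
    have e : ∀ ω, ρ ω ≠ 0 → v ω = v ω0 * ind s ω := fun ω a => by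
      unfold ind; split_ifs with hs
      · rw [h1 ω ω0 a a0 hs s0, mul_one]
      · rw [h0 ω hs, mul_zero]
    have e1 : ex ρ v = v ω0 * ex ρ (ind s) := by rw [ex_congr e, ex_mul]
    have e2 : nsq ρ v = v ω0 ^ 2 * ex ρ (ind s) := by
      rw [nsq_congr e, nsq_mul]; simp only [nsq, sq (ind s _), ind_sq]; rfl
    have e3 : ex ρ (ind fun ω => ¬s ω) = 1 - ex ρ (ind s) := by
      rw [← hρ.ex_compl]; congr 1; funext ω; by_cases hs : s ω <;> simp [ind, hs]
    have e4 : 0 ≤ v ω0 ^ 2 * ex ρ (ind s) := mul_nonneg (sq_nonneg _) (ex_nn hρ.nn (ind_nn _))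
    rw [hρ.var_eq, e1, e2]
    nlinarith
  · push Not at h
    have e : nsq ρ v = 0 := by
      rw [nsq_congr (g := fun _ => 0) fun ω a => h0 ω (h ω a)]; simp [nsq]
    have := hρ.var_le v
    rw [e] at this ⊢; simpa using this

/-- **Lemma B.** -/
theorem exc_con {α β γ : Type} [DecidableEq α] [Fintype β] [DecidableEq β] [DecidableEq γ]
    (hμ : Pr μ) (X : Ω → α) (η : Ω → β) (κ : Ω → γ) (gx sh : α → Prop) [DecidablePred gx]
    [DecidablePred sh] (bad : Ω → Prop) [DecidablePred bad] {e : ℝ} (he : e ≤ 1 / 10000)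
    (hS : ex μ (ind fun ω => ¬gx (X ω)) ≤ e)
    (hbad : ∀ x, gx x → mass μ X x ≠ 0 → ex (cond μ X x) (ind bad) ≤ e)
    (hκ1 : ∀ ω ω', κ ω' = κ ω → bad ω → ω' = ω)
    (hκ2 : ∀ ω ω', κ ω' = κ ω → sh (X ω) → sh (X ω') → X ω' = X ω)
    (hκ3 : ∀ ω, μ ω ≠ 0 → ¬bad ω → ex (cond μ κ (κ ω)) (ind fun ω => ¬sh (X ω)) ≤ e)
    (hTV : ∀ x x', gx x ∧ sh x → gx x' ∧ sh x' → mass μ X x ≠ 0 → mass μ X x' ≠ 0 →
      ∀ h : β → ℝ, (∀ b, |h b| ≤ 1) →
      |ex (cond μ X x) (fun ω => h (η ω)) - ex (cond μ X x') fun ω => h (η ω)| ≤ 1) :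
    Con μ (word [ce μ η, ce μ κ, ps (fun ω => ¬gx (X ω)) μ, ce μ (hat X gx)]) (9 / 10) := by
  have nn := hμ.nn
  have e0 : 0 ≤ e := (ex_nn nn (ind_nn _)).trans hS
  refine con_of_nrm nn (by norm_num) fun f hf => ?_
  simp only [word, ap_comp, ap_idk]
  have pP := proj_ps hμ (S := fun ω => ¬gx (X ω)) (by linarith)
  set f0 := ap (ce μ (hat X gx)) f with hf0
  set f1 := ap (ps (fun ω => ¬gx (X ω)) μ) f0 with hf1
  have m0 : ex μ f0 = 0 := by rw [hf0, (proj_ce nn _).ker.ex_ap, hf]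
  have m1 : ex μ f1 = 0 := by rw [hf1, pP.ker.ex_ap, m0]
  have n1 : nsq μ f1 ≤ nsq μ f := (pP.ctr nn _).trans ((proj_ce nn _).ctr nn _)
  -- `f1` is a function of `X` vanishing off the good set
  set φ : α → ℝ := fun x => ind gx x * (ex (cond μ X x) f - exc (fun ω => ¬gx (X ω)) μ f0) with hφ
  have a1 : ∀ ω, μ ω ≠ 0 → f1 ω = φ (X ω) := fun ω h => by
    rw [hf1, ap_ps, m0, zero_add, hφ]
    by_cases hg : gx (X ω)
    · simp only [ind, hg, not_true, if_false, if_true, sub_zero]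
      rw [hf0, ap_eq_ex, res_hat_row nn X gx h, if_pos hg]
    · simp [ind, hg]
  set F : Ω → ℝ := fun ω => φ (X ω) with hF
  have mF : ex μ F = 0 := by rw [← ex_congr a1, m1]
  have nF : nsq μ F ≤ nsq μ f := by rw [← nsq_congr a1]; exact n1
  have N0 := nsq_nn nn F
  have r1 : nrm μ (ap (ce μ η) (ap (ce μ κ) f1)) = nrm μ (ap (ce μ η) (ap (ce μ κ) F)) :=
    nrm_congr ((proj_ce nn η).ap_congr ((proj_ce nn κ).ap_congr a1))
  -- weight of the bad states
  have b1 : ∀ ψ : α → ℝ, (∀ x, 0 ≤ ψ x) → (∀ x, ¬gx x → ψ x = 0) →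
      ex μ (fun ω => ψ (X ω) * ind bad ω) ≤ e * ex μ fun ω => ψ (X ω) := fun ψ h0 h1 => by
    rw [← ex_mul_ce (π := X) nn fun _ _ h => by rw [h], ← ex_mul]
    refine ex_mono_ae nn fun ω h => ?_
    by_cases hg : gx (X ω)
    · rw [ap_ce_ae nn _ h, mul_comm e]
      exact mul_le_mul_of_nonneg_left (hbad _ hg (mass_ne nn h)) (h0 _)
    · simp [h1 _ hg]
  have row : ∀ ω, μ ω ≠ 0 → bad ω → ∀ g : Ω → ℝ, ap (ce μ κ) g ω = g ω := fun ω _ hb g => by
    rw [ap_eq_ex, ex_congr (g := fun _ => g ω) fun ω' h' => by rw [hκ1 ω ω' (ce_supp h') hb],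
      (pr_ce nn ω).ex_const]
  set v : Ω → ℝ := fun ω => ind sh (X ω) * F ω with hv
  set w : Ω → ℝ := fun ω => ind (fun ω => ¬sh (X ω)) ω * F ω with hw
  have vw : F = fun ω => v ω + w ω := by
    funext ω; simp only [hv, hw, ind]; split_ifs <;> ring
  have nv : nsq μ v ≤ nsq μ F := ex_mono nn fun ω => by
    simp only [hv, ind]; split_ifs <;> simp [sq_nonneg]
  have c1 : nsq μ (ap (ce μ κ) w) ≤ 2 * e * nsq μ F := by
    have h1 : nsq μ (ap (ce μ κ) w) ≤
        ex μ fun ω => e * ap (ce μ κ) (fun x => F x ^ 2) ω + φ (X ω) ^ 2 * ind bad ω := by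
      refine ex_mono_ae nn fun ω h => ?_
      have g0 : 0 ≤ ap (ce μ κ) (fun x => F x ^ 2) ω := ex_nn (ce_nn nn ω) fun _ => sq_nonneg _
      by_cases hb : bad ω
      · have : w ω ^ 2 ≤ φ (X ω) ^ 2 := by
          simp only [hw, hF, ind]; split_ifs <;> simp [sq_nonneg]
        rw [row ω h hb w]; simp only [ind, hb, if_true, mul_one]; nlinarith [mul_nonneg e0 g0]
      · have h2 := cs (ce_nn nn (π := κ) ω) (ind fun ω => ¬sh (X ω)) F
        have h3 : nsq (ce μ κ ω) (ind fun ω => ¬sh (X ω)) ≤ e := by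
          have := hκ3 ω h hb
          rw [← ce_of_ne nn h] at this
          simpa only [nsq, sq, ind_sq, ex] using this
        simp only [ind, hb, if_false, mul_zero, add_zero]
        exact h2.trans (mul_le_mul_of_nonneg_right h3 g0)
    rw [ex_add, ex_mul, (proj_ce nn κ).ker.ex_ap] at h1
    have h2 := b1 (fun x => φ x ^ 2) (fun _ => sq_nonneg _) fun x hx => by simp [hφ, ind, hx]
    rw [nsq_eq_ex μ F]; simp only [hF] at h1 ⊢; linarith
  have c2 : nsq μ (fun ω => v ω - ap (ce μ κ) v ω) ≤ e * nsq μ F := by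
    refine le_trans ?_ (mul_le_mul_of_nonneg_left nv e0)
    rw [(proj_ce nn κ).res_eq (ce_nn nn), nsq_eq_ex μ v,
      ← (proj_ce nn κ).ker.ex_ap fun ω => v ω ^ 2, ← ex_mul]
    refine ex_mono_ae nn fun ω h => ?_
    by_cases hb : bad ω
    · rw [(pr_ce nn ω).var_eq, ← ap_eq_ex, nsq_eq_ex, ← ap_eq_ex, row ω h hb, row ω h hb, sub_self]
      positivity
    · refine var_two_val (pr_ce nn ω) (fun ω => sh (X ω)) ?_ (fun ω' h' => by simp [hv, ind, h'])
        fun a b ha hb' sa sb => ?_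
      · rw [ce_of_ne nn h]; exact hκ3 ω h hb
      · simp only [hv, hF, hκ2 a b ((ce_supp hb').trans (ce_supp ha).symm) sa sb]
  have d1 : nrm μ (fun ω => ap (ce μ κ) F ω - v ω) ≤ 1 / 40 * nrm μ F := by
    have : (fun ω => ap (ce μ κ) F ω - v ω) =
        fun ω => ap (ce μ κ) w ω + (ap (ce μ κ) v ω - v ω) := by
      conv_lhs => rw [vw, ap_add]
      funext ω; ring
    rw [this]
    refine (nrm_add nn _ _).trans ?_
    rw [nrm_sub_comm]
    have h1 : nrm μ (ap (ce μ κ) w) ≤ 3 / 200 * nrm μ F :=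
      (nrm_le_mul nn (by norm_num)).2 (c1.trans (mul_le_mul_of_nonneg_right (by linarith) N0))
    have h2 : nrm μ (fun ω => v ω - ap (ce μ κ) v ω) ≤ 1 / 100 * nrm μ F :=
      (nrm_le_mul nn (by norm_num)).2 (c2.trans (mul_le_mul_of_nonneg_right (by linarith) N0))
    linarith
  have d2 : ex μ v ^ 2 ≤ (1 / 40) ^ 2 * nsq μ F := by
    have h := hμ.sq_ex_le fun ω => ap (ce μ κ) F ω - v ω
    rw [ex_sub, (proj_ce nn κ).ker.ex_ap, mF, zero_sub, neg_sq] at h
    exact h.trans ((nrm_le_mul nn (by norm_num)).1 d1)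
  -- the typical set has mass at least one half
  set T : α → Prop := fun x => gx x ∧ sh x with hT
  have t1 : 1 / 2 ≤ ex μ fun ω => ind T (X ω) := by
    have h1 := b1 (ind gx) (ind_nn _) fun x hx => by simp [ind, hx]
    have h2 : ex μ (fun ω => ind gx (X ω)) ≤ 1 := by
      rw [← hμ.ex_const 1]; exact ex_mono nn fun _ => ind_le_one _ _
    have h3 : ex μ (fun ω => (1 - ind bad ω) * ind (fun ω => ¬sh (X ω)) ω) ≤ e := by
      rw [← ex_mul_ce (π := κ) nn, ← hμ.ex_const e]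
      · refine ex_mono_ae nn fun ω h => ?_
        by_cases hb : bad ω
        · simp [ind, hb, e0]
        · rw [ap_ce_ae nn _ h]; simpa [ind, hb] using hκ3 ω h hb
      · intro a b hab
        by_cases ha : bad a
        · rw [hκ1 a b hab.symm ha]
        · by_cases hb : bad b
          · rw [hκ1 b a hab hb]
          · simp [ind, ha, hb]
    have h4 : ex μ (fun _ => (1 : ℝ)) ≤ ex μ fun ω => ind T (X ω) + (ind (fun ω => ¬gx (X ω)) ω +
        (ind gx (X ω) * ind bad ω + (1 - ind bad ω) * ind (fun ω => ¬sh (X ω)) ω)) :=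
      ex_mono nn fun ω => by
        simp only [ind, hT]
        by_cases a : gx (X ω) <;> by_cases b : sh (X ω) <;> by_cases c : bad ω <;> simp [a, b, c]
    rw [hμ.ex_const, ex_add, ex_add, ex_add] at h4
    nlinarith
  have ov := overlap nn X η T (d := 1 / 2)
    (fun x x' a b c d h hh => (hTV x x' a b c d h hh).trans (by norm_num))
    φ fun b => ex (cond μ η b) v
  have q1 : ∀ ω, ind T (X ω) * φ (X ω) = v ω := fun ω => by
    simp only [hv, hF, hφ, hT, ind]
    by_cases a : gx (X ω) <;> by_cases b : sh (X ω) <;> simp [a, b]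
  have q2 : (fun ω => ind T (X ω) * φ (X ω) ^ 2) = fun ω => v ω ^ 2 := funext fun ω => by
    rw [← q1]; unfold ind; split_ifs <;> ring
  have q3 : ex μ (fun ω => ind T (X ω) * (φ (X ω) - ex (cond μ η (η ω)) v) ^ 2) ≤
      nsq μ v - nsq μ (ap (ce μ η) v) := by
    rw [← (proj_ce nn η).pyth]
    refine ex_mono_ae nn fun ω h => ?_
    beta_reduce
    rw [ap_ce_ae nn _ h, ← q1 ω]
    unfold ind; split_ifs <;> simp [sq_nonneg]
  simp only [q1, q2, ← nsq_eq_ex] at ov
  set t := ex μ fun ω => ind T (X ω)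
  have d3 : nrm μ (ap (ce μ η) v) ≤ 7 / 8 * nrm μ F := by
    rw [nrm_le_mul nn (by norm_num)]
    have h1 : t * (4 * nsq μ (ap (ce μ η) v)) ≤ t * (3 * nsq μ v + 2 * ex μ v ^ 2) := by
      nlinarith [sq_nonneg (ex μ v), mul_le_mul_of_nonneg_left q3 (by linarith : 0 ≤ t)]
    have := le_of_mul_le_mul_left h1 (by linarith)
    nlinarith
  have d4 := nrm_le_add nn (ap (ce μ η) (ap (ce μ κ) F)) (ap (ce μ η) v)
  rw [← ap_sub] at d4
  have d5 := ((proj_ce nn η).ctr nn).nrm_le fun ω => ap (ce μ κ) F ω - v ω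
  have d6 := nrm_mono nF
  rw [r1]; linarith

/-- one step of the killing path. -/
theorem kill_step {β : Type} [DecidableEq β] (hμ : Pr μ) (ψ : Ω → Prop) [DecidablePred ψ]
    (η : Ω → β) {c σ : ℝ} (hc : 0 < c) (h1 : c ≤ ex μ (ind ψ)) (hσ : 0 ≤ σ)
    (h2 : var μ (ap (ce μ η) (ind ψ)) ≤ σ ^ 2) (h : β → ℝ) (hh : ∀ b, |h b| ≤ 1) :
    |ex (fun ω => ind ψ ω * μ ω / ex μ (ind ψ)) (fun ω => h (η ω)) - ex μ fun ω => h (η ω)| ≤
      σ / c := by
  have h3 := abs_cond_sub hμ ψ η (h := fun ω => h (η ω)) (fun _ _ e => by rw [e]) fun _ => hh _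
  have h4 : 0 < ex μ (ind ψ) := hc.trans_le h1
  have e : ex (fun ω => ind ψ ω * μ ω / ex μ (ind ψ)) (fun ω => h (η ω)) =
      ex μ (fun ω => ind ψ ω * h (η ω)) / ex μ (ind ψ) := by
    generalize ex μ (ind ψ) = z
    rw [ex, ex, sum_div]; exact sum_congr rfl fun _ _ => by ring
  rw [e, div_sub' h4.ne', abs_div, abs_of_pos h4]
  exact div_le_div₀ hσ (h3.trans (Real.sqrt_le_iff.2 ⟨hσ, h2⟩)) hc h1

/-! ### the dilute gas -/

section Gas
variable {Λ : Type} [Fintype Λ] [DecidableEq Λ] {w : Finset Λ → ℝ} {Lg : Finset Λ}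
  {gd : Finset Λ → Prop} [DecidablePred gd] {p : ℝ}

/-- classes: good states modulo the loops in `Lg`; the other states are frozen. -/
def gasK (Lg : Finset Λ) (gd : Finset Λ → Prop) [DecidablePred gd] (A : Finset Λ) :
    Finset Λ ⊕ Finset Λ := if gd A then Sum.inl (A \ Lg) else Sum.inr A

lemma gas_shift (hd : ∀ A g, gd A → g ∈ Lg → gd (A.erase g))
    (hp : ∀ A, gd A → ∑ g ∈ Lg \ A, ind gd (insert g A) * w (insert g A) ≤ p * w A)
    {Φ : Finset Λ → ℝ} (hΦ : ∀ A, 0 ≤ Φ A) :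
    ∑ A, ∑ g ∈ A ∩ Lg, ind gd A * w A * Φ (A.erase g) ≤ p * ∑ A, ind gd A * w A * Φ A := by
  have e : ∑ A, ∑ g ∈ A ∩ Lg, ind gd A * w A * Φ (A.erase g) =
      ∑ A, ∑ g ∈ Lg \ A, ind gd (insert g A) * w (insert g A) * Φ A := by
    rw [sum_sigma', sum_sigma']
    refine sum_bij' (fun x _ => ⟨x.1.erase x.2, x.2⟩) (fun x _ => ⟨insert x.2 x.1, x.2⟩)
      ?_ ?_ ?_ ?_ ?_
    · simp +contextual
    · simp +contextual
    · rintro ⟨A, g⟩ h
      simp only [mem_sigma, mem_inter] at h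
      simp [insert_erase h.2.1]
    · rintro ⟨A, g⟩ h
      simp only [mem_sigma, mem_sdiff] at h
      simp [erase_insert h.2.2]
    · rintro ⟨A, g⟩ h
      simp only [mem_sigma, mem_inter] at h
      simp [insert_erase h.2.1]
  rw [e, mul_sum]
  refine sum_le_sum fun A _ => ?_
  rw [← sum_mul]
  by_cases hA : gd A
  · simp only [ind, hA, if_true, one_mul, ← mul_assoc]
    exact mul_le_mul_of_nonneg_right (hp A hA) (hΦ A)
  · rw [sum_eq_zero fun g hg => ?_]
    · simp [ind, hA]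
    · rw [mem_sdiff] at hg
      rw [ind, if_neg fun h => hA (by simpa [erase_insert hg.2] using hd _ g h hg.1), zero_mul]

/-- the residual of the gas projection is bounded by the birth-death form of the long loops. -/
theorem gas_res (hw : ∀ A, 0 ≤ w A) (hd : ∀ A g, gd A → g ∈ Lg → gd (A.erase g)) (hp4 : p ≤ 1 / 4)
    (hp : ∀ A, gd A → ∑ g ∈ Lg \ A, ind gd (insert g A) * w (insert g A) ≤ p * w A)
    (F : Finset Λ → ℝ) : nsq w (fun A => F A - ap (ce w (gasK Lg gd)) F A) ≤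
      4 * ex w fun A => ∑ g ∈ A ∩ Lg, (F A - F (A.erase g)) ^ 2 := by
  set Φ : Finset Λ → ℝ := fun A => (F A - F (A \ Lg)) ^ 2 with hΦ
  set S := ∑ A, ind gd A * w A * Φ A with hS
  have S0 : 0 ≤ S :=
    sum_nonneg fun A _ => mul_nonneg (mul_nonneg (ind_nn _ _) (hw A)) (sq_nonneg _)
  have h1 : nsq w (fun A => F A - ap (ce w (gasK Lg gd)) F A) ≤ S := by
    refine (res_ce_le hw (g := fun A => if gd A then F (A \ Lg) else F A) (fun A B h => ?_) F).trans
      (le_of_eq (sum_congr rfl fun A _ => ?_))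
    · unfold gasK at h
      split_ifs at h with a b b
      · simp only [Sum.inl.injEq] at h; simp [a, b, h]
      · simp only [Sum.inr.injEq] at h; simp [h]
    · simp only [hΦ, ind]; split_ifs <;> simp
  have h2 := gas_shift hd hp (Φ := Φ) fun _ => sq_nonneg _
  have h3 : S ≤ 2 * ex w (fun A => ∑ g ∈ A ∩ Lg, (F A - F (A.erase g)) ^ 2) +
      2 * ∑ A, ∑ g ∈ A ∩ Lg, ind gd A * w A * Φ (A.erase g) := by
    rw [ex, mul_sum, mul_sum, ← sum_add_distrib]
    refine sum_le_sum fun A _ => ?_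
    have iw : 0 ≤ ind gd A * w A := mul_nonneg (ind_nn _ _) (hw A)
    have iw' : ind gd A * w A ≤ w A := mul_le_of_le_one_left (hw A) (ind_le_one _ _)
    have a0 : 0 ≤ ∑ g ∈ A ∩ Lg, (F A - F (A.erase g)) ^ 2 := sum_nonneg fun _ _ => sq_nonneg _
    rw [← mul_sum]
    have key : Φ A ≤ 2 * ∑ g ∈ A ∩ Lg, (F A - F (A.erase g)) ^ 2 +
        2 * ∑ g ∈ A ∩ Lg, Φ (A.erase g) := by
      rcases (A ∩ Lg).eq_empty_or_nonempty with h | ⟨g, hg⟩
      · have : A \ Lg = A := sdiff_eq_self_of_disjoint (disjoint_iff_inter_eq_empty.2 h)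
        simp [hΦ, this, h]
      · have b1 := single_le_sum (f := fun g => (F A - F (A.erase g)) ^ 2)
          (fun _ _ => sq_nonneg _) hg
        have b2 := single_le_sum (f := fun g => Φ (A.erase g)) (fun _ _ => sq_nonneg _) hg
        have b3 : A.erase g \ Lg = A \ Lg := by
          ext x; simp only [mem_sdiff, mem_erase]
          exact ⟨fun h => ⟨h.1.2, h.2⟩, fun h => ⟨⟨fun e => h.2 (e ▸ (mem_inter.1 hg).2), h.1⟩, h.2⟩⟩
        simp only [hΦ, b3] at b2 ⊢
        nlinarith [sq_nonneg (F A - F (A.erase g) - (F (A.erase g) - F (A \ Lg)))]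
    nlinarith [mul_le_mul_of_nonneg_left key iw, mul_le_mul_of_nonneg_right iw' a0]
  rw [← hS] at h2
  nlinarith

/-- inside a good class a long loop is present with probability `≤ p`. -/
theorem gas_long (hw : ∀ A, 0 ≤ w A) (hd : ∀ A g, gd A → g ∈ Lg → gd (A.erase g))
    (hp : ∀ A, gd A → ∑ g ∈ Lg \ A, ind gd (insert g A) * w (insert g A) ≤ p * w A)
    {A0 : Finset Λ} (h0 : w A0 ≠ 0) (hg : gd A0) :
    ex (cond w (gasK Lg gd) (gasK Lg gd A0)) (ind fun A => ¬A ∩ Lg = ∅) ≤ p := by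
  have hm := mass_ne (π := gasK Lg gd) hw h0
  have hm0 := (mass_nn (π := gasK Lg gd) hw _).lt_of_ne' hm
  have h2 := gas_shift hd hp (Φ := ind fun A => A \ Lg = A0 \ Lg) (ind_nn _)
  have e : ∀ A, (gasK Lg gd A = gasK Lg gd A0) ↔ gd A ∧ A \ Lg = A0 \ Lg := fun A => by
    unfold gasK; rw [if_pos hg]; split_ifs with h <;> simp [h]
  refine le_of_mul_le_mul_left ?_ hm0
  rw [mass_mul_ex_cond hm, mul_comm]
  refine le_trans (sum_le_sum fun A _ => ?_) (h2.trans_eq ?_)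
  · simp only [e]
    split_ifs with h
    · rcases (A ∩ Lg).eq_empty_or_nonempty with h' | ⟨g, hg'⟩
      · simp [ind, h']
      · refine le_trans ?_ (single_le_sum (f := fun g => ind gd A * w A *
          ind (fun A => A \ Lg = A0 \ Lg) (A.erase g)) (fun _ _ =>
          mul_nonneg (mul_nonneg (ind_nn _ _) (hw A)) (ind_nn _ _)) hg')
        have b3 : A.erase g \ Lg = A \ Lg := by
          ext x; simp only [mem_sdiff, mem_erase]
          exact ⟨fun h => ⟨h.1.2, h.2⟩,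
            fun h => ⟨⟨fun e => h.2 (e ▸ (mem_inter.1 hg').2), h.1⟩, h.2⟩⟩
        simp only [ind, h.1, b3, h.2, if_true, one_mul, mul_one]
        split_ifs <;> simp [hw A]
    · exact sum_nonneg fun _ _ => mul_nonneg (mul_nonneg (ind_nn _ _) (hw A)) (ind_nn _ _)
  · congr 1
    refine sum_congr rfl fun A _ => ?_
    simp only [e, ind]
    by_cases a : gd A <;> by_cases b : A \ Lg = A0 \ Lg <;> simp [a, b]

end Gas

end Crest.Agent.N337.Op
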