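import Mathlib

/-!
# Row 337: operator calculus on finite probability spaces

Kernels `k : Ω → Ω → ℝ` act by `ap k f`.  `Ker μ k`: fixes constants and `μ`;
`Proj μ k`: orthogonal projection of `L²(μ)` fixing constants (null states allowed).
`var_le_word`: if a word of projections contracts mean-zero functions, the variance is bounded by
the residuals `nsq μ (f - ap k f)`.
-/

set_option autoImplicit false
set_option linter.unusedSectionVars false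

namespace Crest.Agent.N337.Op

open Finset

variable {Ω : Type} [Fintype Ω] [DecidableEq Ω]

/-- probability vector. -/
structure Pr (μ : Ω → ℝ) : Prop where
  nn : ∀ ω, 0 ≤ μ ω
  one : ∑ ω, μ ω = 1

def ex (μ f : Ω → ℝ) : ℝ := ∑ ω, μ ω * f ω
def ip (μ f g : Ω → ℝ) : ℝ := ∑ ω, μ ω * (f ω * g ω)
def nsq (μ f : Ω → ℝ) : ℝ := ∑ ω, μ ω * f ω ^ 2
def var (μ f : Ω → ℝ) : ℝ := nsq μ fun ω => f ω - ex μ f
noncomputable def nrm (μ f : Ω → ℝ) : ℝ := Real.sqrt (nsq μ f)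

/-- action of a kernel. -/
def ap (k : Ω → Ω → ℝ) (f : Ω → ℝ) : Ω → ℝ := fun ω => ∑ ω', k ω ω' * f ω'
/-- `ap (comp k l) = ap k ∘ ap l`. -/
def comp (k l : Ω → Ω → ℝ) : Ω → Ω → ℝ := fun ω ω'' => ∑ ω', k ω ω' * l ω' ω''
def idk : Ω → Ω → ℝ := fun ω ω' => if ω = ω' then 1 else 0
/-- the kernel of the expectation. -/
def ek (μ : Ω → ℝ) : Ω → Ω → ℝ := fun _ ω' => μ ω'
/-- product of a list of kernels (the last one acts first). -/
def word : List (Ω → Ω → ℝ) → Ω → Ω → ℝ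
  | [] => idk
  | k :: l => comp k (word l)

/-- fixes the constants and the measure. -/
structure Ker (μ : Ω → ℝ) (k : Ω → Ω → ℝ) : Prop where
  one : ∀ ω, ∑ ω', k ω ω' = 1
  inv : ∀ ω', ∑ ω, μ ω * k ω ω' = μ ω'

/-- orthogonal projection fixing the constants. -/
structure Proj (μ : Ω → ℝ) (k : Ω → Ω → ℝ) : Prop where
  one : ∀ ω, ∑ ω', k ω ω' = 1
  rev : ∀ ω ω', μ ω * k ω ω' = μ ω' * k ω' ω
  idem : ∀ ω ω', μ ω * comp k k ω ω' = μ ω * k ω ω'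

/-- `k` has norm `≤ δ` on mean-zero functions. -/
def Con (μ : Ω → ℝ) (k : Ω → Ω → ℝ) (δ : ℝ) : Prop :=
  ∀ f, ex μ f = 0 → nsq μ (ap k f) ≤ δ ^ 2 * nsq μ f

/-- `k` has norm `≤ 1`. -/
def Ctr (μ : Ω → ℝ) (k : Ω → Ω → ℝ) : Prop := ∀ f, nsq μ (ap k f) ≤ nsq μ f

variable {μ : Ω → ℝ} {k l : Ω → Ω → ℝ} {f g : Ω → ℝ}

lemma ap_comp (k l : Ω → Ω → ℝ) (f : Ω → ℝ) : ap (comp k l) f = ap k (ap l f) := by
  funext ω
  simp only [ap, comp, sum_mul, mul_sum, mul_assoc]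
  exact sum_comm

@[simp] lemma ap_idk (f : Ω → ℝ) : ap idk f = f := by
  funext ω; simp [ap, idk]

lemma ap_ek (μ f : Ω → ℝ) : ap (ek μ) f = fun _ => ex μ f := rfl

lemma comp_assoc (k l m : Ω → Ω → ℝ) : comp (comp k l) m = comp k (comp l m) := by
  funext ω ω'
  simp only [comp, sum_mul, mul_sum, mul_assoc]
  exact sum_comm

@[simp] lemma comp_idk (k : Ω → Ω → ℝ) : comp k idk = k := by
  funext ω ω'; simp [comp, idk]

@[simp] lemma idk_comp (k : Ω → Ω → ℝ) : comp idk k = k := by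
  funext ω ω'; simp [comp, idk]

lemma ap_add (k : Ω → Ω → ℝ) (f g : Ω → ℝ) :
    ap k (fun ω => f ω + g ω) = fun ω => ap k f ω + ap k g ω := by
  funext ω; simp only [ap, mul_add, sum_add_distrib]

lemma ap_sub (k : Ω → Ω → ℝ) (f g : Ω → ℝ) :
    ap k (fun ω => f ω - g ω) = fun ω => ap k f ω - ap k g ω := by
  funext ω; simp only [ap, mul_sub, sum_sub_distrib]

lemma ap_mul (k : Ω → Ω → ℝ) (a : ℝ) (f : Ω → ℝ) :
    ap k (fun ω => a * f ω) = fun ω => a * ap k f ω := by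
  funext ω; simp only [ap, mul_sum]; exact sum_congr rfl fun _ _ => by ring

lemma ap_const (h : ∀ ω, ∑ ω', k ω ω' = 1) (a : ℝ) : ap k (fun _ => a) = fun _ => a := by
  funext ω; simp only [ap, ← sum_mul, h, one_mul]

lemma ex_add (f g : Ω → ℝ) : ex μ (fun ω => f ω + g ω) = ex μ f + ex μ g := by
  simp only [ex, mul_add, sum_add_distrib]

lemma ex_sub (f g : Ω → ℝ) : ex μ (fun ω => f ω - g ω) = ex μ f - ex μ g := by
  simp only [ex, mul_sub, sum_sub_distrib]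

lemma ex_mul (a : ℝ) (f : Ω → ℝ) : ex μ (fun ω => a * f ω) = a * ex μ f := by
  simp only [ex, mul_sum]; exact sum_congr rfl fun _ _ => by ring

lemma Pr.ex_const (hμ : Pr μ) (a : ℝ) : ex μ (fun _ => a) = a := by
  simp only [ex, ← sum_mul, hμ.one, one_mul]

lemma ex_mono (hμ : ∀ ω, 0 ≤ μ ω) (h : ∀ ω, f ω ≤ g ω) : ex μ f ≤ ex μ g :=
  sum_le_sum fun ω _ => mul_le_mul_of_nonneg_left (h ω) (hμ ω)

lemma ex_nn (hμ : ∀ ω, 0 ≤ μ ω) (h : ∀ ω, 0 ≤ f ω) : 0 ≤ ex μ f :=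
  sum_nonneg fun ω _ => mul_nonneg (hμ ω) (h ω)

lemma nsq_eq_ex (μ f : Ω → ℝ) : nsq μ f = ex μ fun ω => f ω ^ 2 := rfl
lemma ip_eq_ex (μ f g : Ω → ℝ) : ip μ f g = ex μ fun ω => f ω * g ω := rfl
lemma ip_self (μ f : Ω → ℝ) : ip μ f f = nsq μ f := by simp only [ip, nsq, sq]
lemma ip_comm (μ f g : Ω → ℝ) : ip μ f g = ip μ g f := by simp only [ip, mul_comm (f _)]

lemma nsq_nn (hμ : ∀ ω, 0 ≤ μ ω) (f : Ω → ℝ) : 0 ≤ nsq μ f :=
  sum_nonneg fun ω _ => mul_nonneg (hμ ω) (sq_nonneg _)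

lemma nsq_add (μ f g : Ω → ℝ) :
    nsq μ (fun ω => f ω + g ω) = nsq μ f + 2 * ip μ f g + nsq μ g := by
  simp only [nsq, ip, mul_sum, ← sum_add_distrib]; exact sum_congr rfl fun _ _ => by ring

lemma nsq_sub (μ f g : Ω → ℝ) :
    nsq μ (fun ω => f ω - g ω) = nsq μ f - 2 * ip μ f g + nsq μ g := by
  simp only [nsq, ip, mul_sum, ← sum_add_distrib, ← sum_sub_distrib]
  exact sum_congr rfl fun _ _ => by ring

lemma nsq_mul (μ : Ω → ℝ) (a : ℝ) (f : Ω → ℝ) : nsq μ (fun ω => a * f ω) = a ^ 2 * nsq μ f := by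
  simp only [nsq, mul_sum]; exact sum_congr rfl fun _ _ => by ring

lemma nsq_sub_comm (μ f g : Ω → ℝ) :
    nsq μ (fun ω => f ω - g ω) = nsq μ fun ω => g ω - f ω := by
  simp only [nsq]; exact sum_congr rfl fun _ _ => by ring

lemma ip_sub_right (μ f g h : Ω → ℝ) : ip μ f (fun ω => g ω - h ω) = ip μ f g - ip μ f h := by
  simp only [ip, mul_sub, sum_sub_distrib]

lemma ip_add_right (μ f g h : Ω → ℝ) : ip μ f (fun ω => g ω + h ω) = ip μ f g + ip μ f h := by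
  simp only [ip, mul_add, sum_add_distrib]

lemma ip_const (μ f : Ω → ℝ) (a : ℝ) : ip μ f (fun _ => a) = a * ex μ f := by
  simp only [ip, ex, mul_sum]; exact sum_congr rfl fun _ _ => by ring

/-- Cauchy-Schwarz. -/
lemma cs (hμ : ∀ ω, 0 ≤ μ ω) (f g : Ω → ℝ) : ip μ f g ^ 2 ≤ nsq μ f * nsq μ g := by
  refine sum_sq_le_sum_mul_sum_of_sq_le_mul _ (fun ω _ => ?_) (fun ω _ => ?_) fun ω _ => ?_
  · exact mul_nonneg (hμ ω) (sq_nonneg _)
  · exact mul_nonneg (hμ ω) (sq_nonneg _)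
  · exact le_of_eq (by ring)

lemma nrm_nn (μ f : Ω → ℝ) : 0 ≤ nrm μ f := Real.sqrt_nonneg _

lemma nrm_sq (hμ : ∀ ω, 0 ≤ μ ω) (f : Ω → ℝ) : nrm μ f ^ 2 = nsq μ f :=
  Real.sq_sqrt (nsq_nn hμ f)

lemma nrm_le_iff (_hμ : ∀ ω, 0 ≤ μ ω) {a : ℝ} (ha : 0 ≤ a) : nrm μ f ≤ a ↔ nsq μ f ≤ a ^ 2 :=
  Real.sqrt_le_left ha

lemma nrm_le_mul (hμ : ∀ ω, 0 ≤ μ ω) {a : ℝ} (ha : 0 ≤ a) :
    nrm μ f ≤ a * nrm μ g ↔ nsq μ f ≤ a ^ 2 * nsq μ g := by
  rw [nrm_le_iff hμ (mul_nonneg ha (nrm_nn _ _)), mul_pow, nrm_sq hμ]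

lemma nrm_mono (h : nsq μ f ≤ nsq μ g) : nrm μ f ≤ nrm μ g := Real.sqrt_le_sqrt h

lemma ip_le (hμ : ∀ ω, 0 ≤ μ ω) (f g : Ω → ℝ) : |ip μ f g| ≤ nrm μ f * nrm μ g := by
  refine abs_le_of_sq_le_sq' ?_ (mul_nonneg (nrm_nn _ _) (nrm_nn _ _)) |> abs_le.2
  rw [mul_pow, nrm_sq hμ, nrm_sq hμ]; exact cs hμ f g

lemma nrm_add (hμ : ∀ ω, 0 ≤ μ ω) (f g : Ω → ℝ) :
    nrm μ (fun ω => f ω + g ω) ≤ nrm μ f + nrm μ g := by
  rw [nrm_le_iff hμ (add_nonneg (nrm_nn _ _) (nrm_nn _ _)), nsq_add, add_sq, nrm_sq hμ, nrm_sq hμ]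
  have := (abs_le.1 (ip_le hμ f g)).2
  linarith

lemma nrm_sub_comm (μ f g : Ω → ℝ) : nrm μ (fun ω => f ω - g ω) = nrm μ fun ω => g ω - f ω := by
  simp only [nrm, nsq_sub_comm μ f g]

/-- triangle inequality through a middle point. -/
lemma nrm_tri (hμ : ∀ ω, 0 ≤ μ ω) (f g h : Ω → ℝ) : nrm μ (fun ω => f ω - h ω) ≤
    nrm μ (fun ω => f ω - g ω) + nrm μ fun ω => g ω - h ω := by
  have := nrm_add hμ (fun ω => f ω - g ω) fun ω => g ω - h ω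
  simpa only [sub_add_sub_cancel] using this

lemma nrm_le_add (hμ : ∀ ω, 0 ≤ μ ω) (f g : Ω → ℝ) :
    nrm μ f ≤ nrm μ g + nrm μ fun ω => f ω - g ω := by
  have := nrm_add hμ g fun ω => f ω - g ω
  simpa only [add_sub_cancel] using this

lemma nsq_add_le (hμ : ∀ ω, 0 ≤ μ ω) (f g : Ω → ℝ) :
    nsq μ (fun ω => f ω + g ω) ≤ 2 * nsq μ f + 2 * nsq μ g := by
  have := nsq_nn hμ fun ω => f ω - g ω
  rw [nsq_sub] at this
  rw [nsq_add]; linarith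

lemma Pr.abs_ex_le (hμ : Pr μ) (f : Ω → ℝ) : |ex μ f| ≤ nrm μ f := by
  have h := ip_le hμ.nn f fun _ => 1
  have e : nrm μ (fun _ : Ω => (1 : ℝ)) = 1 := by
    simp only [nrm, nsq, one_pow, mul_one, hμ.one, Real.sqrt_one]
  rwa [ip_const, one_mul, e, mul_one] at h

lemma Pr.sq_ex_le (hμ : Pr μ) (f : Ω → ℝ) : ex μ f ^ 2 ≤ nsq μ f := by
  rw [← nrm_sq hμ.nn, ← sq_abs]
  exact pow_le_pow_left₀ (abs_nonneg _) (hμ.abs_ex_le f) 2

lemma Pr.nsq_sub_const (hμ : Pr μ) (f : Ω → ℝ) (a : ℝ) :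
    nsq μ (fun ω => f ω - a) = nsq μ f - 2 * a * ex μ f + a ^ 2 := by
  rw [nsq_sub, ip_const]
  have : nsq μ (fun _ : Ω => a) = a ^ 2 := by simp only [nsq, ← sum_mul, hμ.one, one_mul]
  rw [this]; ring

lemma Pr.var_eq (hμ : Pr μ) (f : Ω → ℝ) : var μ f = nsq μ f - ex μ f ^ 2 := by
  rw [var, hμ.nsq_sub_const]; ring

lemma Pr.var_le_sub (hμ : Pr μ) (f : Ω → ℝ) (a : ℝ) : var μ f ≤ nsq μ fun ω => f ω - a := by
  rw [hμ.var_eq, hμ.nsq_sub_const]; nlinarith [sq_nonneg (a - ex μ f)]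

lemma Pr.var_le (hμ : Pr μ) (f : Ω → ℝ) : var μ f ≤ nsq μ f := by
  simpa using hμ.var_le_sub f 0

lemma Pr.ex_center (hμ : Pr μ) (f : Ω → ℝ) : ex μ (fun ω => f ω - ex μ f) = 0 := by
  rw [ex_sub, hμ.ex_const, sub_self]

lemma var_nn (hμ : ∀ ω, 0 ≤ μ ω) (f : Ω → ℝ) : 0 ≤ var μ f := nsq_nn hμ _

/-! ### kernels -/

lemma Ker.ex_ap (hk : Ker μ k) (f : Ω → ℝ) : ex μ (ap k f) = ex μ f := by
  simp only [ex, ap, mul_sum, ← mul_assoc]
  rw [sum_comm]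
  simp only [← sum_mul, hk.inv]

lemma Ker.comp (hk : Ker μ k) (hl : Ker μ l) : Ker μ (comp k l) where
  one ω := by
    have := congrFun (ap_comp k l fun _ => 1) ω
    rw [ap_const hl.one, ap_const hk.one] at this
    simpa only [ap, mul_one] using this
  inv ω' := by
    simp only [Op.comp, mul_sum, ← mul_assoc]
    rw [sum_comm]
    simp only [← sum_mul, hk.inv, hl.inv]

lemma ker_idk (μ : Ω → ℝ) : Ker μ idk where
  one ω := by simp [idk]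
  inv ω' := by simp [idk]

lemma Pr.ker_ek (hμ : Pr μ) : Ker μ (ek μ) where
  one _ := hμ.one
  inv ω' := by simp only [ek, ← sum_mul, hμ.one, one_mul]

lemma Ker.word {L : List (Ω → Ω → ℝ)} (h : ∀ k ∈ L, Ker μ k) : Ker μ (word L) := by
  induction L with
  | nil => exact ker_idk μ
  | cons k L ih =>
    exact (h k List.mem_cons_self).comp (ih fun l hl => h l (List.mem_cons_of_mem _ hl))

lemma Ker.comp_ek (hk : Ker μ k) : Op.comp k (ek μ) = ek μ := by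
  funext ω ω'; simp only [Op.comp, ek, ← sum_mul, hk.one, one_mul]

lemma Ker.ek_comp (hk : Ker μ k) : Op.comp (ek μ) k = ek μ := by
  funext ω ω'; simp only [Op.comp, ek, hk.inv]

lemma ker_of_rev (h1 : ∀ ω, ∑ ω', k ω ω' = 1) (hr : ∀ ω ω', μ ω * k ω ω' = μ ω' * k ω' ω) :
    Ker μ k where
  one := h1
  inv ω' := by simp only [fun ω => hr ω ω', ← mul_sum, h1, mul_one]

lemma Proj.ker (hk : Proj μ k) : Ker μ k := ker_of_rev hk.one hk.rev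

lemma ip_ap (hr : ∀ ω ω', μ ω * k ω ω' = μ ω' * k ω' ω) (f g : Ω → ℝ) :
    ip μ f (ap k g) = ip μ (ap k f) g := by
  simp only [ip, ap, mul_sum, sum_mul]
  rw [sum_comm]
  refine sum_congr rfl fun ω _ => sum_congr rfl fun ω' _ => ?_
  linear_combination (f ω' * g ω) * hr ω' ω

lemma Proj.ip_idem (hk : Proj μ k) (f g : Ω → ℝ) : ip μ f (ap k (ap k g)) = ip μ f (ap k g) := by
  rw [← ap_comp]
  simp only [ip, ap, mul_sum]
  refine sum_congr rfl fun ω _ => sum_congr rfl fun ω' _ => ?_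
  linear_combination (f ω * g ω') * hk.idem ω ω'

lemma Proj.nsq_ap (hk : Proj μ k) (f : Ω → ℝ) : nsq μ (ap k f) = ip μ f (ap k f) := by
  rw [← ip_self, ← ip_ap hk.rev, hk.ip_idem]

/-- Pythagoras. -/
lemma Proj.pyth (hk : Proj μ k) (f : Ω → ℝ) :
    nsq μ (fun ω => f ω - ap k f ω) = nsq μ f - nsq μ (ap k f) := by
  rw [nsq_sub, ← hk.nsq_ap]; ring

lemma Proj.ctr (hμ : ∀ ω, 0 ≤ μ ω) (hk : Proj μ k) : Ctr μ k := fun f => by
  have := nsq_nn hμ fun ω => f ω - ap k f ω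
  rw [hk.pyth] at this; linarith

/-- the residual is the distance to the range. -/
lemma Proj.res_le (hμ : ∀ ω, 0 ≤ μ ω) (hk : Proj μ k) (f g : Ω → ℝ) :
    nsq μ (fun ω => f ω - ap k f ω) ≤ nsq μ fun ω => f ω - ap k g ω := by
  have h := nsq_nn hμ fun ω => ap k f ω - ap k g ω
  rw [nsq_sub, ← ip_ap hk.rev, hk.ip_idem] at h
  rw [hk.pyth, nsq_sub]; linarith

lemma Proj.res_le_var (hμ : Pr μ) (hk : Proj μ k) (f : Ω → ℝ) :
    nsq μ (fun ω => f ω - ap k f ω) ≤ var μ f := by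
  have := hk.res_le hμ.nn f fun _ => ex μ f
  rwa [ap_const hk.one] at this

lemma proj_idk (μ : Ω → ℝ) : Proj μ idk where
  one := (ker_idk μ).one
  rev ω ω' := by by_cases h : ω = ω' <;> simp [idk, h, eq_comm]
  idem ω ω' := by rw [comp_idk]

lemma Pr.proj_ek (hμ : Pr μ) : Proj μ (ek μ) where
  one := hμ.ker_ek.one
  rev ω ω' := mul_comm _ _
  idem ω ω' := by rw [hμ.ker_ek.comp_ek]

/-- a Markov kernel fixing `μ` is a contraction. -/
lemma Ker.ctr (hμ : ∀ ω, 0 ≤ μ ω) (hk : Ker μ k) (h0 : ∀ ω ω', 0 ≤ k ω ω') : Ctr μ k := fun f => by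
  rw [nsq_eq_ex μ f, ← hk.ex_ap]
  exact ex_mono hμ fun ω => Pr.sq_ex_le ⟨h0 ω, hk.one ω⟩ f

lemma Ctr.comp (hk : Ctr μ k) (hl : Ctr μ l) : Ctr μ (comp k l) := fun f => by
  rw [ap_comp]; exact (hk _).trans (hl f)

lemma Ctr.nrm_le (hk : Ctr μ k) (f : Ω → ℝ) : nrm μ (ap k f) ≤ nrm μ f := nrm_mono (hk f)

lemma Con.ctr {δ : ℝ} (hμ : Pr μ) (hk : Ker μ k) (hc : Con μ k δ) (hδ : δ ^ 2 ≤ 1) :
    Ctr μ k := fun f => by
  have h := hc _ (hμ.ex_center f)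
  rw [ap_sub, ap_const hk.one, hμ.nsq_sub_const, hk.ex_ap, hμ.nsq_sub_const] at h
  have := hμ.sq_ex_le f
  nlinarith

lemma Con.mono {δ δ' : ℝ} (hμ : ∀ ω, 0 ≤ μ ω) (hc : Con μ k δ) (h : δ ^ 2 ≤ δ' ^ 2) :
    Con μ k δ' := fun f hf => (hc f hf).trans (mul_le_mul_of_nonneg_right h (nsq_nn hμ f))

lemma Con.comp_left {δ : ℝ} (hk : Ctr μ k) (hc : Con μ l δ) : Con μ (comp k l) δ := fun f hf => by
  rw [ap_comp]; exact (hk _).trans (hc f hf)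

lemma Con.comp_right {δ : ℝ} (hc : Con μ k δ) (hl : Ker μ l) (hl' : Ctr μ l) :
    Con μ (comp k l) δ := fun f hf => by
  rw [ap_comp]
  exact (hc _ (by rw [hl.ex_ap, hf])).trans (mul_le_mul_of_nonneg_left (hl' f) (sq_nonneg _))

lemma con_of_nrm {δ : ℝ} (hμ : ∀ ω, 0 ≤ μ ω) (hδ : 0 ≤ δ)
    (h : ∀ f, ex μ f = 0 → nrm μ (ap k f) ≤ δ * nrm μ f) : Con μ k δ :=
  fun f hf => (nrm_le_mul hμ hδ).1 (h f hf)

lemma Con.nrm_le {δ : ℝ} (hμ : ∀ ω, 0 ≤ μ ω) (hδ : 0 ≤ δ) (hc : Con μ k δ) (hf : ex μ f = 0) :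
    nrm μ (ap k f) ≤ δ * nrm μ f := (nrm_le_mul hμ hδ).2 (hc f hf)

/-- telescoping a word of contractions. -/
theorem nrm_word (hμ : ∀ ω, 0 ≤ μ ω) {L : List (Ω → Ω → ℝ)} (h : ∀ k ∈ L, Ctr μ k) (f : Ω → ℝ) :
    nrm μ (fun ω => f ω - ap (word L) f ω) ≤
      (L.map fun k => nrm μ fun ω => f ω - ap k f ω).sum := by
  induction L with
  | nil => simp [word, nrm, nsq]
  | cons k L ih =>
    rw [List.map_cons, List.sum_cons, word, ap_comp]
    refine (nrm_tri hμ f (ap k f) _).trans (add_le_add le_rfl ?_)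
    rw [← ap_sub]
    exact ((h k List.mem_cons_self).nrm_le _).trans (ih fun l hl => h l (List.mem_cons_of_mem _ hl))

lemma sq_list_sum_le (L : List ℝ) : L.sum ^ 2 ≤ L.length * (L.map (· ^ 2)).sum := by
  induction L with
  | nil => simp
  | cons a L ih =>
    simp only [List.sum_cons, List.map_cons, List.length_cons, Nat.cast_succ]
    have hs : 0 ≤ (L.map (· ^ 2)).sum :=
      List.sum_nonneg (by simp only [List.mem_map]; rintro _ ⟨x, -, rfl⟩; positivity)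
    rcases Nat.eq_zero_or_pos L.length with h0 | h0
    · rw [List.length_eq_zero_iff.1 h0]; simp
    · have hn : (0 : ℝ) < L.length := by exact_mod_cast h0
      refine le_of_mul_le_mul_left ?_ hn
      nlinarith [sq_nonneg (L.length * a - L.sum)]

/-- **variance from a contracting word.** -/
theorem var_le_word {δ : ℝ} (hμ : Pr μ) {L : List (Ω → Ω → ℝ)} (h1 : ∀ k ∈ L, Ker μ k)
    (h : ∀ k ∈ L, Ctr μ k) (hδ : 0 ≤ δ) (hδ1 : δ ≤ 1) (hc : Con μ (word L) δ) (f : Ω → ℝ) :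
    (1 - δ) ^ 2 * var μ f ≤ L.length * (L.map fun k => nsq μ fun ω => f ω - ap k f ω).sum := by
  set g : Ω → ℝ := fun ω => f ω - ex μ f with hg
  have e : ∀ k, Ker μ k → (fun ω => g ω - ap k g ω) = fun ω => f ω - ap k f ω := fun k hk => by
    rw [hg, ap_sub, ap_const hk.one]; funext ω; ring
  have a1 := nrm_le_add hμ.nn g (ap (word L) g)
  have a2 := hc.nrm_le hμ.nn hδ (hμ.ex_center f)
  have a3 := nrm_word hμ.nn h g
  have a4 := sq_list_sum_le (L.map fun k => nrm μ fun ω => g ω - ap k g ω)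
  rw [List.length_map, List.map_map] at a4
  have a5 : (L.map ((· ^ 2) ∘ fun k => nrm μ fun ω => g ω - ap k g ω)) =
      L.map fun k => nsq μ fun ω => f ω - ap k f ω :=
    List.map_congr_left fun k hk => by
      simp only [Function.comp, nrm_sq hμ.nn, e k (h1 k hk)]
  rw [a5] at a4
  refine le_trans ?_ a4
  rw [var, ← hg, ← nrm_sq hμ.nn, ← mul_pow]
  refine pow_le_pow_left₀ (mul_nonneg (by linarith) (nrm_nn _ _)) ?_ 2
  rw [← hg] at a2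
  linarith

end Crest.Agent.N337.Op
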