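import Crest.Agent.N337.Op.Tens

/-!
# Row 337: conditional expectations, the rare-set projection, the overlap lemma

* `ce μ π`: conditional expectation given the map `π` (identity on null fibres);
* `ps μ S`: `f ↦ E f + 1_{Sᶜ} (f - E[f | Sᶜ])`;
* `Proj.res_eq`: the residual of a Markov projection is the mean conditional variance;
* `overlap`: total variation closeness of conditional laws gives a Poincaré inequality.
-/

set_option autoImplicit false
set_option linter.unusedSectionVars false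

namespace Crest.Agent.N337.Op

open Finset

/-- indicator. -/
def ind {α : Type} (S : α → Prop) [DecidablePred S] (ω : α) : ℝ := if S ω then 1 else 0

lemma ind_nn {α : Type} (S : α → Prop) [DecidablePred S] (ω : α) : 0 ≤ ind S ω := by
  unfold ind; split_ifs <;> norm_num

lemma ind_le_one {α : Type} (S : α → Prop) [DecidablePred S] (ω : α) : ind S ω ≤ 1 := by
  unfold ind; split_ifs <;> norm_num

variable {Ω : Type} [Fintype Ω] [DecidableEq Ω] {μ f g : Ω → ℝ} {k l : Ω → Ω → ℝ}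

lemma ker_ext (h : ∀ f, ap k f = ap l f) : k = l := by
  funext ω ω'
  simpa [ap] using congrFun (h fun x => if x = ω' then 1 else 0) ω

lemma ex_congr (h : ∀ ω, μ ω ≠ 0 → f ω = g ω) : ex μ f = ex μ g :=
  sum_congr rfl fun ω _ => by by_cases h0 : μ ω = 0 <;> simp [h0, h ω]

lemma ex_mono_ae (hμ : ∀ ω, 0 ≤ μ ω) (h : ∀ ω, μ ω ≠ 0 → f ω ≤ g ω) : ex μ f ≤ ex μ g :=
  sum_le_sum fun ω _ => by
    by_cases h0 : μ ω = 0
    · simp [h0]
    · exact mul_le_mul_of_nonneg_left (h ω h0) (hμ ω)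

lemma nsq_congr (h : ∀ ω, μ ω ≠ 0 → f ω = g ω) : nsq μ f = nsq μ g :=
  ex_congr fun ω h0 => by rw [h ω h0]

lemma nrm_congr (h : ∀ ω, μ ω ≠ 0 → f ω = g ω) : nrm μ f = nrm μ g := by
  simp only [nrm, nsq_congr h]

lemma var_congr (h : ∀ ω, μ ω ≠ 0 → f ω = g ω) : var μ f = var μ g :=
  nsq_congr fun ω h0 => by rw [h ω h0, ex_congr h]

lemma Proj.supp (hk : Proj μ k) {ω ω' : Ω} (h : μ ω ≠ 0) (h' : k ω ω' ≠ 0) : μ ω' ≠ 0 := by
  intro h0
  have := hk.rev ω ω'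
  rw [h0, zero_mul] at this
  exact mul_ne_zero h h' this

lemma Proj.ap_congr (hk : Proj μ k) (h : ∀ ω, μ ω ≠ 0 → f ω = g ω) (ω : Ω) (h0 : μ ω ≠ 0) :
    ap k f ω = ap k g ω := ex_congr fun ω' h' => h ω' (hk.supp h0 h')

lemma ap_eq_ex (k : Ω → Ω → ℝ) (f : Ω → ℝ) (ω : Ω) : ap k f ω = ex (k ω) f := rfl

/-- the residual of a Markov projection is the mean conditional variance. -/
theorem Proj.res_eq (hk : Proj μ k) (h0 : ∀ ω ω', 0 ≤ k ω ω') (f : Ω → ℝ) :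
    nsq μ (fun ω => f ω - ap k f ω) = ex μ fun ω => var (k ω) f := by
  have e : (fun ω => var (k ω) f) = fun ω => ap k (fun x => f x ^ 2) ω - ap k f ω ^ 2 :=
    funext fun ω => Pr.var_eq ⟨h0 ω, hk.one ω⟩ f
  rw [hk.pyth, e, ex_sub, hk.ker.ex_ap]; rfl

/-- law of total variance. -/
theorem Proj.var_split (hμ : Pr μ) (hk : Proj μ k) (f : Ω → ℝ) :
    var μ f = nsq μ (fun ω => f ω - ap k f ω) + var μ (ap k f) := by
  rw [hk.pyth, hμ.var_eq, hμ.var_eq, hk.ker.ex_ap]; ring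

/-- joint residual of Markov projections: mean variance under the product of the rows. -/
theorem res_tens_eq {ι : Type} [Fintype ι] [DecidableEq ι] {E : ι → Type} [∀ i, Fintype (E i)]
    [∀ i, DecidableEq (E i)] {μ : ∀ i, E i → ℝ} {k : ∀ i, E i → E i → ℝ}
    (hk : ∀ i, Proj (μ i) (k i)) (h0 : ∀ i x y, 0 ≤ k i x y) (f : (∀ i, E i) → ℝ) :
    nsq (pm μ) (fun ω => f ω - ap (tens k) f ω) =
      ex (pm μ) fun ω => var (pm fun i => k i (ω i)) f :=
  (proj_tens hk).res_eq (fun _ _ => prod_nonneg fun i _ => h0 i _ _) f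

/-! ### conditional expectation -/

section CE
variable {κ κ' : Type} [DecidableEq κ] [DecidableEq κ'] {π : Ω → κ} {π' : Ω → κ'}

/-- mass of a fibre. -/
def mass (μ : Ω → ℝ) (π : Ω → κ) (c : κ) : ℝ := ∑ ω, if π ω = c then μ ω else 0

/-- conditional law on a fibre. -/
noncomputable def cond (μ : Ω → ℝ) (π : Ω → κ) (c : κ) (ω : Ω) : ℝ :=
  if π ω = c then μ ω / mass μ π c else 0

/-- conditional expectation given `π`. -/
noncomputable def ce (μ : Ω → ℝ) (π : Ω → κ) (ω : Ω) : Ω → ℝ :=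
  if mass μ π (π ω) = 0 then idk ω else cond μ π (π ω)

lemma mass_nn (hμ : ∀ ω, 0 ≤ μ ω) (c : κ) : 0 ≤ mass μ π c :=
  sum_nonneg fun ω _ => by split_ifs; exacts [hμ ω, le_rfl]

lemma le_mass (hμ : ∀ ω, 0 ≤ μ ω) (ω : Ω) : μ ω ≤ mass μ π (π ω) := by
  have := single_le_sum (f := fun x => if π x = π ω then μ x else 0)
    (fun x _ => by split_ifs; exacts [hμ x, le_rfl]) (mem_univ ω)
  simpa [mass] using this

lemma mass_ne (hμ : ∀ ω, 0 ≤ μ ω) {ω : Ω} (h : μ ω ≠ 0) : mass μ π (π ω) ≠ 0 :=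
  (((hμ ω).lt_of_ne' h).trans_le (le_mass hμ ω)).ne'

lemma ce_of_ne (hμ : ∀ ω, 0 ≤ μ ω) {ω : Ω} (h : μ ω ≠ 0) : ce μ π ω = cond μ π (π ω) :=
  if_neg (mass_ne hμ h)

lemma cond_nn (hμ : ∀ ω, 0 ≤ μ ω) (c : κ) (ω : Ω) : 0 ≤ cond μ π c ω := by
  unfold cond; split_ifs; exacts [div_nonneg (hμ ω) (mass_nn hμ c), le_rfl]

lemma pr_cond (hμ : ∀ ω, 0 ≤ μ ω) {c : κ} (h : mass μ π c ≠ 0) : Pr (cond μ π c) where
  nn := cond_nn hμ c
  one := by
    have : ∀ ω, cond μ π c ω = (if π ω = c then μ ω else 0) / mass μ π c := fun ω => by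
      unfold cond; split_ifs <;> simp
    simp only [this, ← sum_div]; exact div_self h

lemma cond_supp {c : κ} {ω : Ω} (h : cond μ π c ω ≠ 0) : π ω = c ∧ μ ω ≠ 0 := by
  unfold cond at h
  split_ifs at h with h1
  · exact ⟨h1, fun h0 => h (by simp [h0])⟩
  · exact absurd rfl h

lemma mass_mul_ex_cond {c : κ} (h : mass μ π c ≠ 0) (f : Ω → ℝ) :
    mass μ π c * ex (cond μ π c) f = ∑ ω, if π ω = c then μ ω * f ω else 0 := by
  simp only [ex, mul_sum, cond]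
  refine sum_congr rfl fun ω _ => ?_
  split_ifs
  · field_simp
  · simp

lemma ce_nn (hμ : ∀ ω, 0 ≤ μ ω) (ω ω' : Ω) : 0 ≤ ce μ π ω ω' := by
  unfold ce; split_ifs
  · unfold idk; split_ifs <;> norm_num
  · exact cond_nn hμ _ _

lemma pr_ce (hμ : ∀ ω, 0 ≤ μ ω) (ω : Ω) : Pr (ce μ π ω) := by
  refine ⟨ce_nn hμ ω, ?_⟩
  unfold ce; split_ifs with h
  · simp [idk]
  · exact (pr_cond hμ h).one

lemma ce_supp {ω ω' : Ω} (h : ce μ π ω ω' ≠ 0) : π ω' = π ω := by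
  unfold ce at h
  split_ifs at h
  · by_contra h'; exact h (if_neg fun e => h' (by rw [e]))
  · exact (cond_supp h).1

/-- measurable factors come out. -/
lemma ap_ce_mul (hg : ∀ ω ω', π ω = π ω' → g ω = g ω') (f : Ω → ℝ) :
    ap (ce μ π) (fun ω => g ω * f ω) = fun ω => g ω * ap (ce μ π) f ω := by
  funext ω
  rw [ap_eq_ex, ap_eq_ex, ← ex_mul]
  exact ex_congr fun ω' h => by rw [hg _ _ (ce_supp h)]

lemma ap_ce_meas (hμ : ∀ ω, 0 ≤ μ ω) (hg : ∀ ω ω', π ω = π ω' → g ω = g ω') :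
    ap (ce μ π) g = g := by
  have := ap_ce_mul (μ := μ) hg fun _ => 1
  rw [ap_const fun ω => (pr_ce hμ ω).one] at this
  simpa only [mul_one] using this

lemma comp_ce (hμ : ∀ ω, 0 ≤ μ ω) (h : ∀ ω ω', π ω = π ω' → π' ω = π' ω') :
    comp (ce μ π) (ce μ π') = ce μ π' := by
  funext ω ω''
  show ap (ce μ π) (fun ω' => ce μ π' ω' ω'') ω = _
  by_cases h0 : mass μ π (π ω) = 0
  · simp [ap, ce, h0, idk]
  · rw [ap_eq_ex, ex_congr (g := fun _ => ce μ π' ω ω''), (pr_ce hμ ω).ex_const]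
    intro ω' h'
    have h1 := h _ _ (ce_supp h')
    rw [ce, if_neg h0] at h'
    have h2 : mass μ π' (π' ω') ≠ 0 := mass_ne hμ (cond_supp h').2
    simp only [ce, if_neg (h1 ▸ h2), h1]

theorem proj_ce (hμ : ∀ ω, 0 ≤ μ ω) (π : Ω → κ) : Proj μ (ce μ π) where
  one ω := (pr_ce hμ ω).one
  rev ω ω' := by
    have key : ∀ a b : Ω, μ a * ce μ π a b =
        if π a = π b then μ a * μ b / mass μ π (π a) else 0 := fun a b => by
      by_cases h0 : μ a = 0
      · simp [h0]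
      · rw [ce_of_ne hμ h0, cond]
        by_cases h : π a = π b
        · rw [if_pos h.symm, if_pos h, mul_div_assoc]
        · rw [if_neg (Ne.symm h), if_neg h, mul_zero]
    rw [key, key]
    by_cases h : π ω = π ω'
    · rw [if_pos h, if_pos h.symm, h, mul_comm]
    · rw [if_neg h, if_neg (Ne.symm h)]
  idem ω ω' := by rw [comp_ce hμ fun _ _ h => h]

lemma ex_mul_ce (hμ : ∀ ω, 0 ≤ μ ω) (hg : ∀ ω ω', π ω = π ω' → g ω = g ω') (f : Ω → ℝ) :
    ex μ (fun ω => g ω * ap (ce μ π) f ω) = ex μ fun ω => g ω * f ω := by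
  rw [← ap_ce_mul hg, (proj_ce hμ π).ker.ex_ap]

/-- the residual is at most the distance to any measurable function. -/
lemma res_ce_le (hμ : ∀ ω, 0 ≤ μ ω) (hg : ∀ ω ω', π ω = π ω' → g ω = g ω') (f : Ω → ℝ) :
    nsq μ (fun ω => f ω - ap (ce μ π) f ω) ≤ nsq μ fun ω => f ω - g ω := by
  have := (proj_ce hμ π).res_le hμ f g
  rwa [ap_ce_meas hμ hg] at this

/-- a finer partition has a smaller residual. -/
lemma res_ce_mono (hμ : ∀ ω, 0 ≤ μ ω) (h : ∀ ω ω', π ω = π ω' → π' ω = π' ω') (f : Ω → ℝ) :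
    nsq μ (fun ω => f ω - ap (ce μ π) f ω) ≤ nsq μ fun ω => f ω - ap (ce μ π') f ω :=
  (proj_ce hμ π).res_le_of_comp hμ (comp_ce hμ h) f

lemma res_ce (hμ : ∀ ω, 0 ≤ μ ω) (π : Ω → κ) (f : Ω → ℝ) :
    nsq μ (fun ω => f ω - ap (ce μ π) f ω) = ex μ fun ω => var (cond μ π (π ω)) f := by
  rw [(proj_ce hμ π).res_eq (ce_nn hμ)]
  exact ex_congr fun ω h => by rw [ce_of_ne hμ h]

lemma ap_ce_ae (hμ : ∀ ω, 0 ≤ μ ω) (f : Ω → ℝ) {ω : Ω} (h : μ ω ≠ 0) :
    ap (ce μ π) f ω = ex (cond μ π (π ω)) f := by rw [ap_eq_ex, ce_of_ne hμ h]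

/-- conditioning on an event of probability `≥ c` moves bounded means by a covariance. -/
lemma abs_cond_sub (hμ : Pr μ) (ψ : Ω → Prop) [DecidablePred ψ] (π : Ω → κ) {h : Ω → ℝ}
    (hm : ∀ ω ω', π ω = π ω' → h ω = h ω') (h1 : ∀ ω, |h ω| ≤ 1) :
    |ex μ (fun ω => ind ψ ω * h ω) - ex μ (ind ψ) * ex μ h| ≤
      Real.sqrt (var μ (ap (ce μ π) (ind ψ))) := by
  have e : ex μ (fun ω => ind ψ ω * h ω) - ex μ (ind ψ) * ex μ h =
      ip μ h fun ω => ap (ce μ π) (ind ψ) ω - ex μ (ap (ce μ π) (ind ψ)) := by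
    rw [ip_sub_right, ip_const, (proj_ce hμ.nn π).ker.ex_ap, ip_eq_ex, ex_mul_ce hμ.nn hm]
    simp only [mul_comm]
  have h2 : nrm μ h ≤ 1 := by
    rw [nrm_le_iff hμ.nn zero_le_one, nsq_eq_ex, ← hμ.ex_const (1 ^ 2)]
    exact ex_mono hμ.nn fun ω => sq_le_sq' (abs_le.1 (h1 ω)).1 (abs_le.1 (h1 ω)).2
  rw [e]
  refine (ip_le hμ.nn _ _).trans ?_
  exact (mul_le_mul_of_nonneg_right h2 (nrm_nn _ _)).trans_eq (one_mul _)

end CE

/-! ### the rare-set projection -/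

section PS
variable (S : Ω → Prop) [DecidablePred S]

/-- `f ↦ E f + 1_{Sᶜ} (f - E[f | Sᶜ])`. -/
noncomputable def ps (μ : Ω → ℝ) (ω ω' : Ω) : ℝ :=
  μ ω' + (1 - ind S ω) * (idk ω ω' - (1 - ind S ω') * μ ω' / (1 - ex μ (ind S)))

/-- `E[f | Sᶜ]`. -/
noncomputable def exc (μ f : Ω → ℝ) : ℝ :=
  ex μ (fun ω => (1 - ind S ω) * f ω) / (1 - ex μ (ind S))

lemma ap_ps (μ f : Ω → ℝ) (ω : Ω) :
    ap (ps S μ) f ω = ex μ f + (1 - ind S ω) * (f ω - exc S μ f) := by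
  have h := congrFun (ap_idk f) ω
  simp only [ap, ps, exc, ex, add_mul, sum_add_distrib, sum_div] at h ⊢
  rw [← h, ← sum_sub_distrib, mul_sum]
  congr 1
  exact sum_congr rfl fun _ _ => by ring

lemma ind_sq (ω : Ω) : ind S ω * ind S ω = ind S ω := by unfold ind; split_ifs <;> norm_num

variable {S}

lemma Pr.ex_compl (hμ : Pr μ) : ex μ (fun ω => 1 - ind S ω) = 1 - ex μ (ind S) := by
  rw [ex_sub, hμ.ex_const]

lemma Pr.ex_ps_aux (hμ : Pr μ) (hS : ex μ (ind S) < 1) (f : Ω → ℝ) :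
    ex μ (fun ω => (1 - ind S ω) * (f ω - exc S μ f)) = 0 := by
  have : (fun ω => (1 - ind S ω) * (f ω - exc S μ f)) =
      fun ω => (1 - ind S ω) * f ω - exc S μ f * (1 - ind S ω) := by funext ω; ring
  rw [this, ex_sub, ex_mul, hμ.ex_compl, exc, div_mul_cancel₀ _ (by linarith), sub_self]

theorem proj_ps (hμ : Pr μ) (hS : ex μ (ind S) < 1) : Proj μ (ps S μ) := by
  have hq : 1 - ex μ (ind S) ≠ 0 := by linarith
  have h1 : ∀ a : ℝ, exc S μ (fun _ => a) = a := fun a => by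
    simp only [exc, mul_comm _ a]; rw [ex_mul, hμ.ex_compl, mul_div_cancel_right₀ _ hq]
  refine ⟨fun ω => ?_, fun ω ω' => ?_, fun ω ω' => ?_⟩
  · have := ap_ps S μ (fun _ => 1) ω
    rw [hμ.ex_const, h1] at this
    simpa [ap] using this
  · unfold ps idk
    by_cases h : ω = ω'
    · subst h; rfl
    · rw [if_neg h, if_neg (Ne.symm h)]; ring
  · congr 1
    refine congrFun (congrFun (ker_ext fun f => ?_) ω) ω'
    have e1 : ap (ps S μ) f = fun ω => ex μ f + (1 - ind S ω) * (f ω - exc S μ f) :=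
      funext (ap_ps S μ f)
    have e2 : ex μ (ap (ps S μ) f) = ex μ f := by
      rw [e1, ex_add, hμ.ex_const, hμ.ex_ps_aux hS, add_zero]
    have e3 : exc S μ (ap (ps S μ) f) = ex μ f := by
      have : (fun ω => (1 - ind S ω) * ap (ps S μ) f ω) =
          fun ω => ex μ f * (1 - ind S ω) + (1 - ind S ω) * (f ω - exc S μ f) := by
        funext ω; rw [ap_ps]; linear_combination (f ω - exc S μ f) * ind_sq S ω
      rw [exc, this, ex_add, hμ.ex_ps_aux hS, ex_mul, hμ.ex_compl, add_zero,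
        mul_div_cancel_right₀ _ hq]
    funext x
    rw [ap_comp, ap_ps, e2, e3, ap_ps]
    linear_combination (f x - exc S μ f) * ind_sq S x

/-- the residual of `ps` lives on `S`. -/
theorem res_ps_le (hμ : Pr μ) (hS : ex μ (ind S) ≤ 1 / 2) (f : Ω → ℝ) :
    nsq μ (fun ω => f ω - ap (ps S μ) f ω) ≤ 2 * ex μ fun ω => ind S ω * (f ω - ex μ f) ^ 2 := by
  set s := ex μ (ind S) with hs
  set A := ex μ fun ω => ind S ω * (f ω - ex μ f) ^ 2 with hA
  set c := exc S μ f - ex μ f with hc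
  have s0 : 0 ≤ s := ex_nn hμ.nn (ind_nn S)
  have A0 : 0 ≤ A := ex_nn hμ.nn fun ω => mul_nonneg (ind_nn S ω) (sq_nonneg _)
  have e1 : nsq μ (fun ω => f ω - ap (ps S μ) f ω) = A + c ^ 2 * (1 - s) := by
    rw [hs, ← hμ.ex_compl, ← ex_mul, hA, ← ex_add, nsq_eq_ex]
    congr 1; funext ω
    rw [ap_ps, hc]; unfold ind; split_ifs <;> ring
  have e2 : c * (1 - s) = -ip μ (ind S) fun ω => ind S ω * (f ω - ex μ f) := by
    have h1 := hμ.ex_ps_aux (S := S) (by linarith) f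
    have h2 := hμ.ex_center f
    have : (fun ω => (1 - ind S ω) * (f ω - exc S μ f)) = fun ω => ((f ω - ex μ f) -
        ind S ω * (ind S ω * (f ω - ex μ f))) - c * (1 - ind S ω) := by
      funext ω; rw [hc]; linear_combination (f ω - ex μ f) * ind_sq S ω
    rw [this, ex_sub, ex_sub, h2, ex_mul, hμ.ex_compl] at h1
    rw [ip_eq_ex]; linarith
  have e3 := cs hμ.nn (ind S) fun ω => ind S ω * (f ω - ex μ f)
  have e4 : nsq μ (ind S) = s := by simp only [nsq, sq, ind_sq]; rfl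
  have e5 : nsq μ (fun ω => ind S ω * (f ω - ex μ f)) = A := by
    simp only [nsq, mul_pow, sq (ind S _), ind_sq]; rfl
  rw [e4, e5, ← neg_sq, ← e2] at e3
  rw [e1]
  have : c ^ 2 * (1 - s) * (1 - s) ≤ A * (1 - s) := by nlinarith
  have := le_of_mul_le_mul_right this (by linarith)
  linarith

end PS

/-! ### overlap -/

lemma overlap_aux {β : Type} [Fintype β] {a b : β → ℝ} (ha : Pr a) (hb : Pr b) {d : ℝ}
    (h : ∀ h : β → ℝ, (∀ x, |h x| ≤ 1) → |ex a h - ex b h| ≤ 2 * d) (u v : ℝ) (h0 : β → ℝ) :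
    (1 - d) * (u - v) ^ 2 ≤ 2 * ex a (fun x => (u - h0 x) ^ 2) + 2 * ex b fun x => (v - h0 x) ^ 2 := by
  have h1 := h (fun x => if a x ≤ b x then -1 else 1) fun x => by split_ifs <;> simp
  have h2 : 1 - d ≤ ∑ x, min (a x) (b x) := by
    have e : ∑ x, 2 * min (a x) (b x) = ∑ x, ((a x + b x) - (a x * (if a x ≤ b x then -1 else 1) -
        b x * if a x ≤ b x then -1 else 1)) := sum_congr rfl fun x _ => by
      split_ifs with hx
      · rw [min_eq_left hx]; ring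
      · rw [min_eq_right (le_of_not_ge hx)]; ring
    rw [← mul_sum, sum_sub_distrib, sum_sub_distrib, sum_add_distrib, ha.one, hb.one] at e
    have := (abs_le.1 h1).2
    simp only [ex] at this
    linarith
  refine (mul_le_mul_of_nonneg_right h2 (sq_nonneg _)).trans ?_
  simp only [ex, mul_sum, sum_mul, ← sum_add_distrib]
  refine sum_le_sum fun x _ => ?_
  have m0 : 0 ≤ min (a x) (b x) := le_min (ha.nn x) (hb.nn x)
  have m1 := mul_le_mul_of_nonneg_right (min_le_left (a x) (b x)) (sq_nonneg (u - h0 x))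
  have m2 := mul_le_mul_of_nonneg_right (min_le_right (a x) (b x)) (sq_nonneg (v - h0 x))
  nlinarith [mul_nonneg m0 (sq_nonneg (u - h0 x + (v - h0 x)))]

/-- image of a weight. -/
lemma ex_mass {β : Type} [Fintype β] [DecidableEq β] (μ : Ω → ℝ) (η : Ω → β) (h : β → ℝ) :
    ex (mass μ η) h = ex μ fun ω => h (η ω) := by
  simp only [ex, mass, sum_mul, ite_mul, zero_mul]
  rw [sum_comm]; simp

lemma pr_mass {β : Type} [Fintype β] [DecidableEq β] (hμ : Pr μ) (η : Ω → β) :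
    Pr (mass μ η) where
  nn := mass_nn hμ.nn
  one := by simpa only [ex, mul_one, hμ.one] using ex_mass μ η fun _ => 1

/-- **overlap lemma**: if the laws of `η` given `X = x`, `x ∈ T`, are `d`-close, a function of `X`
is almost constant on `T` as soon as it is close to a function of `η`. -/
theorem overlap {α β : Type} [DecidableEq α] [Fintype β] [DecidableEq β] (hμ : ∀ ω, 0 ≤ μ ω)
    (X : Ω → α) (η : Ω → β) (T : α → Prop) [DecidablePred T] {d : ℝ}
    (hTV : ∀ x x', T x → T x' → mass μ X x ≠ 0 → mass μ X x' ≠ 0 → ∀ h : β → ℝ, (∀ b, |h b| ≤ 1) →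
      |ex (cond μ X x) (fun ω => h (η ω)) - ex (cond μ X x') fun ω => h (η ω)| ≤ 2 * d)
    (φ : α → ℝ) (h : β → ℝ) :
    (1 - d) * (ex μ (fun ω => ind T (X ω)) * ex μ (fun ω => ind T (X ω) * φ (X ω) ^ 2) -
      ex μ (fun ω => ind T (X ω) * φ (X ω)) ^ 2) ≤
      2 * ex μ (fun ω => ind T (X ω)) * ex μ fun ω => ind T (X ω) * (φ (X ω) - h (η ω)) ^ 2 := by
  set G : Ω → ℝ := ap (ce μ X) fun ω => (φ (X ω) - h (η ω)) ^ 2 with hG
  set t : Ω → ℝ := fun ω => ind T (X ω) with ht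
  have hG' : ∀ ω, μ ω ≠ 0 → G ω = ex (mass (cond μ X (X ω)) η) fun b => (φ (X ω) - h b) ^ 2 :=
    fun ω h0 => by
      rw [hG, ap_ce_ae hμ _ h0, ex_mass]
      exact ex_congr fun ω' h' => by rw [(cond_supp h').1]
  have key : ∀ ω ω', μ ω * t ω * (μ ω' * t ω') * ((1 - d) * (φ (X ω) - φ (X ω')) ^ 2) ≤
      μ ω * t ω * (μ ω' * t ω') * (2 * G ω + 2 * G ω') := fun ω ω' => by
    by_cases h0 : μ ω = 0
    · simp [h0]
    by_cases h0' : μ ω' = 0
    · simp [h0']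
    by_cases h1 : T (X ω)
    swap
    · simp [ht, ind, h1]
    by_cases h1' : T (X ω')
    swap
    · simp [ht, ind, h1']
    refine mul_le_mul_of_nonneg_left ?_
      (mul_nonneg (mul_nonneg (hμ _) (ind_nn _ _)) (mul_nonneg (hμ _) (ind_nn _ _)))
    rw [hG' ω h0, hG' ω' h0']
    refine overlap_aux (pr_mass (pr_cond hμ (mass_ne hμ h0)) η)
      (pr_mass (pr_cond hμ (mass_ne hμ h0')) η) (fun h' hh => ?_) _ _ h
    rw [ex_mass, ex_mass]
    exact hTV _ _ h1 h1' (mass_ne hμ h0) (mass_ne hμ h0') h' hh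
  have hs := sum_le_sum fun ω (_ : ω ∈ univ) => sum_le_sum fun ω' (_ : ω' ∈ univ) => key ω ω'
  have e0 : ex μ (fun ω => t ω * (φ (X ω) - h (η ω)) ^ 2) = ex μ fun ω => t ω * G ω :=
    (ex_mul_ce hμ (fun _ _ e => by simp only [ht, e]) _).symm
  have e1 : ∑ ω, ∑ ω', μ ω * t ω * (μ ω' * t ω') * (2 * G ω + 2 * G ω') =
      4 * (ex μ t * ex μ fun ω => t ω * G ω) := by
    have : ∀ ω ω', μ ω * t ω * (μ ω' * t ω') * (2 * G ω + 2 * G ω') =
        2 * (μ ω * (t ω * G ω) * (μ ω' * t ω')) + 2 * (μ ω * t ω * (μ ω' * (t ω' * G ω'))) :=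
      fun _ _ => by ring
    simp only [this, sum_add_distrib, ← mul_sum, ← sum_mul, ex]; ring
  have e2 : ∑ ω, ∑ ω', μ ω * t ω * (μ ω' * t ω') * ((1 - d) * (φ (X ω) - φ (X ω')) ^ 2) =
      2 * ((1 - d) * (ex μ t * ex μ (fun ω => t ω * φ (X ω) ^ 2) -
        ex μ (fun ω => t ω * φ (X ω)) ^ 2)) := by
    have : ∀ ω ω', μ ω * t ω * (μ ω' * t ω') * ((1 - d) * (φ (X ω) - φ (X ω')) ^ 2) =
        (1 - d) * (μ ω * (t ω * φ (X ω) ^ 2) * (μ ω' * t ω')) +
        (1 - d) * (μ ω * t ω * (μ ω' * (t ω' * φ (X ω') ^ 2))) -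
        2 * (1 - d) * (μ ω * (t ω * φ (X ω)) * (μ ω' * (t ω' * φ (X ω')))) := fun _ _ => by ring
    simp only [this, sum_add_distrib, sum_sub_distrib, ← mul_sum, ← sum_mul, ex]; ring
  rw [e1, e2] at hs
  rw [e0]; linarith

end Crest.Agent.N337.Op
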