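import Crest.Agent.N337.Op.Basic

/-!
# Row 337: tensor products of kernels

`tens k` on `∀ i, E i` with the product weight `pm μ`.  Contractions on mean-zero functions
tensorise exactly (`Con.tens`), hence `var_le_tens` (joint residuals); the joint residual of
projections is at most the sum of the one-coordinate residuals (`res_tens_le`).
-/

set_option autoImplicit false
set_option linter.unusedSectionVars false

namespace Crest.Agent.N337.Op

open Finset Function

variable {ι : Type} [Fintype ι] [DecidableEq ι] {E : ι → Type} [∀ i, Fintype (E i)]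
  [∀ i, DecidableEq (E i)]

/-- product weight. -/
def pm (μ : ∀ i, E i → ℝ) : (∀ i, E i) → ℝ := fun ω => ∏ i, μ i (ω i)

/-- tensor product of kernels. -/
def tens (k : ∀ i, E i → E i → ℝ) : (∀ i, E i) → (∀ i, E i) → ℝ :=
  fun ω ω' => ∏ i, k i (ω i) (ω' i)

/-- tensor product over the coordinates in `S`. -/
def tS (S : Finset ι) (k : ∀ i, E i → E i → ℝ) : (∀ i, E i) → (∀ i, E i) → ℝ :=
  tens fun i => if i ∈ S then k i else idk

variable {μ : ∀ i, E i → ℝ} {k l : ∀ i, E i → E i → ℝ}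

lemma sum_pi (g : ∀ i, E i → ℝ) : ∑ ω : ∀ i, E i, ∏ i, g i (ω i) = ∏ i, ∑ x, g i x := by
  have h := Finset.prod_univ_sum (fun i => (univ : Finset (E i))) g
  rw [Fintype.piFinset_univ] at h
  exact h.symm

lemma pm_nn (h : ∀ i x, 0 ≤ μ i x) (ω : ∀ i, E i) : 0 ≤ pm μ ω := prod_nonneg fun i _ => h i _

lemma pr_pm (h : ∀ i, Pr (μ i)) : Pr (pm μ) where
  nn := pm_nn fun i => (h i).nn
  one := by simp only [pm, sum_pi, fun i => (h i).one, prod_const_one]

lemma comp_tens (k l : ∀ i, E i → E i → ℝ) :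
    comp (tens k) (tens l) = tens fun i => comp (k i) (l i) := by
  funext ω ω''
  simp only [comp, tens, ← prod_mul_distrib]
  exact sum_pi fun i x => k i (ω i) x * l i x (ω'' i)

lemma tens_idk : tens (fun i => (idk : E i → E i → ℝ)) = idk := by
  funext ω ω'
  simp only [tens, idk, prod_boole, mem_univ, forall_true_left, funext_iff]

lemma tens_ek (μ : ∀ i, E i → ℝ) : tens (fun i => ek (μ i)) = ek (pm μ) := rfl

lemma ker_tens (h : ∀ i, Ker (μ i) (k i)) : Ker (pm μ) (tens k) where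
  one ω := by
    simp only [tens]
    rw [sum_pi fun i x => k i (ω i) x]; simp only [fun i => (h i).one, prod_const_one]
  inv ω' := by
    simp only [tens, pm, ← prod_mul_distrib]
    rw [sum_pi fun i x => μ i x * k i x (ω' i)]; simp only [fun i => (h i).inv]

lemma proj_tens (h : ∀ i, Proj (μ i) (k i)) : Proj (pm μ) (tens k) where
  one := (ker_tens fun i => (h i).ker).one
  rev ω ω' := by simp only [tens, pm, ← prod_mul_distrib, fun i => (h i).rev (ω i) (ω' i)]
  idem ω ω' := by
    rw [comp_tens]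
    simp only [tens, pm, ← prod_mul_distrib, fun i => (h i).idem (ω i) (ω' i)]

lemma word_tens (L : List (∀ i, E i → E i → ℝ)) :
    word (L.map tens) = tens fun i => word (L.map fun k => k i) := by
  induction L with
  | nil => exact tens_idk.symm
  | cons k L ih => simp only [List.map_cons, word, ih, comp_tens]

lemma tS_univ (k : ∀ i, E i → E i → ℝ) : tS univ k = tens k := by simp [tS]

lemma tS_empty (k : ∀ i, E i → E i → ℝ) : tS ∅ k = idk := by
  simp only [tS, notMem_empty, if_false, tens_idk]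

lemma ker_tS (S : Finset ι) (h : ∀ i, Ker (μ i) (k i)) : Ker (pm μ) (tS S k) :=
  ker_tens fun i => by split_ifs; exacts [h i, ker_idk _]

lemma proj_tS (S : Finset ι) (h : ∀ i, Proj (μ i) (k i)) : Proj (pm μ) (tS S k) :=
  proj_tens fun i => by split_ifs; exacts [h i, proj_idk _]

lemma tS_insert {S : Finset ι} {i : ι} (hi : i ∉ S) (k : ∀ i, E i → E i → ℝ) :
    tS (insert i S) k = comp (tS {i} k) (tS S k) := by
  simp only [tS, comp_tens]
  congr 1; funext j
  by_cases h : j = i
  · subst h; simp [hi]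
  · simp [h]

lemma tS_comm {S : Finset ι} {i : ι} (hi : i ∉ S) (k l : ∀ i, E i → E i → ℝ) :
    comp (tS {i} k) (tS S l) = comp (tS S l) (tS {i} k) := by
  simp only [tS, comp_tens]
  congr 1; funext j
  by_cases h : j = i
  · subst h; simp [hi]
  · simp [h]

lemma tS_one_comp (i : ι) (k l : ∀ i, E i → E i → ℝ) :
    comp (tS {i} k) (tS {i} l) = tS {i} fun j => comp (k j) (l j) := by
  simp only [tS, comp_tens]
  congr 1; funext j
  by_cases h : j = i <;> simp [h]

/-- a one-coordinate kernel acts on the section. -/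
lemma ap_tS_one (i : ι) (k : ∀ i, E i → E i → ℝ) (f : (∀ i, E i) → ℝ) (ω : ∀ i, E i) :
    ap (tS {i} k) f ω = ap (k i) (fun x => f (update ω i x)) (ω i) := by
  have e : ∀ ω' : ∀ i, E i, tS {i} k ω ω' * f ω' =
      ∑ x, if update ω i x = ω' then k i (ω i) x * f (update ω i x) else 0 := fun ω' => by
    rw [sum_eq_single (ω' i) (fun x _ hx => if_neg fun h => hx (by rw [← h, update_self]))
      (by simp)]
    simp only [tS, tens]
    rw [← mul_prod_erase univ _ (mem_univ i)]
    simp only [mem_singleton, if_true]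
    split_ifs with h
    · rw [h, prod_eq_one, mul_one]
      intro j hj
      have hj' := (mem_erase.1 hj).1
      rw [if_neg hj', ← h, update_of_ne hj']; simp [idk]
    · obtain ⟨j, hj⟩ := Function.ne_iff.1 h
      have hj' : j ≠ i := by rintro rfl; simp at hj
      rw [update_of_ne hj'] at hj
      rw [prod_eq_zero (mem_erase.2 ⟨hj', mem_univ j⟩), mul_zero, zero_mul]
      simp [hj', idk, hj]
  simp only [ap, e]
  rw [sum_comm]
  simp

lemma ex_pm_sec (h : ∀ i, Pr (μ i)) (i : ι) (f : (∀ i, E i) → ℝ) :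
    ex (pm μ) f = ex (pm μ) fun ω => ex (μ i) fun x => f (update ω i x) := by
  rw [← (ker_tS {i} fun j => (h j).ker_ek).ex_ap f]
  congr 1; funext ω; exact ap_tS_one i _ f ω

lemma nsq_tS_one (h : ∀ i, Pr (μ i)) (i : ι) (k : ∀ i, E i → E i → ℝ) (f : (∀ i, E i) → ℝ) :
    nsq (pm μ) (ap (tS {i} k) f) =
      ex (pm μ) fun ω => nsq (μ i) (ap (k i) fun x => f (update ω i x)) := by
  rw [nsq_eq_ex, ex_pm_sec h i]
  simp only [ap_tS_one, update_idem, update_self, nsq_eq_ex]

/-- the one-coordinate residual is the mean of the residuals of the sections. -/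
lemma res_tS_one (h : ∀ i, Pr (μ i)) (i : ι) (k : ∀ i, E i → E i → ℝ) (f : (∀ i, E i) → ℝ) :
    nsq (pm μ) (fun ω => f ω - ap (tS {i} k) f ω) = ex (pm μ) fun ω =>
      nsq (μ i) fun x => f (update ω i x) - ap (k i) (fun y => f (update ω i y)) x := by
  rw [nsq_eq_ex, ex_pm_sec h i]
  simp only [ap_tS_one, update_idem, update_self, nsq_eq_ex]

lemma nsq_tS_one_le (h : ∀ i, Pr (μ i)) (i : ι) {c : ℝ}
    (hk : ∀ g, nsq (μ i) (ap (k i) g) ≤ c * nsq (μ i) g) (f : (∀ i, E i) → ℝ) :
    nsq (pm μ) (ap (tS {i} k) f) ≤ c * nsq (pm μ) f := by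
  rw [nsq_tS_one h, nsq_eq_ex _ f, ex_pm_sec h i fun ω => f ω ^ 2, ← ex_mul]
  exact ex_mono (pr_pm h).nn fun ω => hk _

lemma ctr_tS (h : ∀ i, Pr (μ i)) (hk : ∀ i, Ctr (μ i) (k i)) (S : Finset ι) :
    Ctr (pm μ) (tS S k) := by
  induction S using Finset.induction_on with
  | empty => intro f; rw [tS_empty, ap_idk]
  | insert i S hi ih =>
    rw [tS_insert hi]
    refine Ctr.comp (fun f => ?_) ih
    simpa using nsq_tS_one_le h i (c := 1) (fun g => by simpa using hk i g) f

lemma ctr_tens (h : ∀ i, Pr (μ i)) (hk : ∀ i, Ctr (μ i) (k i)) : Ctr (pm μ) (tens k) :=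
  tS_univ k ▸ ctr_tS h hk univ

theorem con_tS {δ : ℝ} (h : ∀ i, Pr (μ i)) (hk : ∀ i, Ker (μ i) (k i))
    (hc : ∀ i, Con (μ i) (k i) δ) (hδ : δ ^ 2 ≤ 1) (S : Finset ι) (f : (∀ i, E i) → ℝ) :
    nsq (pm μ) (fun ω => ap (tS S k) f ω - ap (tS S fun i => ek (μ i)) f ω) ≤
      δ ^ 2 * nsq (pm μ) f := by
  have hp := pr_pm h
  induction S using Finset.induction_on generalizing f with
  | empty =>
    simp only [tS_empty, sub_self, nsq, ne_eq, OfNat.ofNat_ne_zero, not_false_eq_true, zero_pow,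
      mul_zero, sum_const_zero]
    exact mul_nonneg (sq_nonneg _) (nsq_nn hp.nn f)
  | insert i S hi ih =>
    set e : ∀ i, E i → E i → ℝ := fun i => ek (μ i) with he
    have pE : Proj (pm μ) (tS {i} e) := proj_tS _ fun j => (h j).proj_ek
    have hek : comp (tS {i} e) (tS {i} k) = tS {i} e := by
      rw [tS_one_comp]; simp only [he, fun j => (hk j).ek_comp]
    have hke : comp (tS {i} k) (tS {i} e) = tS {i} e := by
      rw [tS_one_comp]; simp only [he, fun j => (hk j).comp_ek]
    have hee : comp (tS {i} e) (tS {i} e) = tS {i} e := by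
      rw [tS_one_comp]; simp only [he, fun j => (h j).ker_ek.comp_ek]
    -- the mean-zero part in the coordinate `i`
    have hN : ∀ g : (∀ i, E i) → ℝ, nsq (pm μ) (fun ω => ap (tS {i} k) g ω - ap (tS {i} e) g ω) ≤
        δ ^ 2 * nsq (pm μ) fun ω => g ω - ap (tS {i} e) g ω := fun g => by
      have e1 : (fun ω => ap (tS {i} k) g ω - ap (tS {i} e) g ω) =
          ap (tS {i} k) fun ω => g ω - ap (tS {i} e) g ω := by
        rw [ap_sub, ← ap_comp, hke]
      rw [e1, nsq_tS_one h, res_tS_one h, ← ex_mul]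
      refine ex_mono hp.nn fun ω => ?_
      simp only [ap_tS_one, update_idem, update_self, he, ap_ek]
      exact hc i _ ((h i).ex_center _)
    set u : (∀ i, E i) → ℝ := fun ω =>
      ap (tS {i} k) (ap (tS S k) f) ω - ap (tS {i} e) (ap (tS S k) f) ω with hu
    set v : (∀ i, E i) → ℝ := ap (tS {i} e) fun ω => ap (tS S k) f ω - ap (tS S e) f ω with hv
    have e1 : (fun ω => ap (tS (insert i S) k) f ω - ap (tS (insert i S) e) f ω) =
        fun ω => u ω + v ω := by
      rw [tS_insert hi, tS_insert hi, ap_comp, ap_comp, hv, ap_sub]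
      funext ω; simp only [hu]; ring
    have e2 : ip (pm μ) u v = 0 := by
      rw [hv, ip_ap pE.rev, hu, ap_sub, ← ap_comp, ← ap_comp (tS {i} e) (tS {i} e), hek, hee]
      simp [ip]
    have e3 : nsq (pm μ) v ≤ δ ^ 2 * nsq (pm μ) (ap (tS {i} e) f) := by
      rw [hv, ap_sub, ← ap_comp, ← ap_comp, tS_comm hi, tS_comm hi, ap_comp, ap_comp]
      exact ih _
    have e4 : nsq (pm μ) u ≤ δ ^ 2 * nsq (pm μ) fun ω => f ω - ap (tS {i} e) f ω := by
      refine (hN _).trans (mul_le_mul_of_nonneg_left ?_ (sq_nonneg _))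
      rw [← ap_comp, tS_comm hi, ap_comp, ← ap_sub]
      exact ctr_tS h (fun j => (hc j).ctr (h j) (hk j) hδ) S _
    rw [e1, nsq_add, e2]
    rw [pE.pyth] at e4
    linarith

/-- **contractions on mean-zero functions tensorise.** -/
theorem con_tens {δ : ℝ} (h : ∀ i, Pr (μ i)) (hk : ∀ i, Ker (μ i) (k i))
    (hc : ∀ i, Con (μ i) (k i) δ) (hδ : δ ^ 2 ≤ 1) : Con (pm μ) (tens k) δ := fun f hf => by
  have := con_tS h hk hc hδ univ f
  rw [tS_univ, tS_univ, tens_ek, ap_ek, hf] at this
  simpa only [sub_zero] using this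

/-- **joint residuals**: a word that contracts in every factor bounds the variance of the product. -/
theorem var_le_tens {δ : ℝ} (h : ∀ i, Pr (μ i)) {L : List (∀ i, E i → E i → ℝ)}
    (h1 : ∀ k ∈ L, ∀ i, Ker (μ i) (k i)) (h2 : ∀ k ∈ L, ∀ i, Ctr (μ i) (k i)) (hδ : 0 ≤ δ)
    (hδ1 : δ ≤ 1) (hc : ∀ i, Con (μ i) (word (L.map fun k => k i)) δ) (f : (∀ i, E i) → ℝ) :
    (1 - δ) ^ 2 * var (pm μ) f ≤
      L.length * (L.map fun k => nsq (pm μ) fun ω => f ω - ap (tens k) f ω).sum := by
  have := var_le_word (δ := δ) (pr_pm h) (L := L.map tens) ?_ ?_ hδ hδ1 ?_ f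
  · simpa only [List.length_map, List.map_map, Function.comp_def] using this
  · simp only [List.mem_map]; rintro _ ⟨k, hk, rfl⟩; exact ker_tens (h1 k hk)
  · simp only [List.mem_map]; rintro _ ⟨k, hk, rfl⟩; exact ctr_tens h (h2 k hk)
  · rw [word_tens]
    refine con_tens h (fun i => Ker.word ?_) hc (by nlinarith)
    simp only [List.mem_map]; rintro _ ⟨k, hk, rfl⟩; exact h1 k hk i

theorem res_tS_le (h : ∀ i x, 0 ≤ μ i x) (hk : ∀ i, Proj (μ i) (k i)) (S : Finset ι)
    (f : (∀ i, E i) → ℝ) : nsq (pm μ) (fun ω => f ω - ap (tS S k) f ω) ≤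
      ∑ i ∈ S, nsq (pm μ) fun ω => f ω - ap (tS {i} k) f ω := by
  induction S using Finset.induction_on with
  | empty => simp [tS_empty, nsq]
  | insert i S hi ih =>
    have pT : Proj (pm μ) (tS {i} k) := proj_tS _ hk
    have e1 : (fun ω => f ω - ap (tS (insert i S) k) f ω) = fun ω => (f ω - ap (tS {i} k) f ω) +
        ap (tS {i} k) (fun ω => f ω - ap (tS S k) f ω) ω := by
      rw [tS_insert hi, ap_comp, ap_sub]; funext ω; ring
    have e2 : ip (pm μ) (fun ω => f ω - ap (tS {i} k) f ω)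
        (ap (tS {i} k) fun ω => f ω - ap (tS S k) f ω) = 0 := by
      rw [ip_ap pT.rev, ip_comm, ap_sub, ip_sub_right, pT.ip_idem, sub_self]
    rw [e1, nsq_add, e2, sum_insert hi]
    have := pT.ctr (pm_nn h) fun ω => f ω - ap (tS S k) f ω
    linarith

/-- **joint ≤ sum** for projections. -/
theorem res_tens_le (h : ∀ i, Pr (μ i)) (hk : ∀ i, Proj (μ i) (k i)) (f : (∀ i, E i) → ℝ) :
    nsq (pm μ) (fun ω => f ω - ap (tens k) f ω) ≤ ∑ i, ex (pm μ) fun ω =>
      nsq (μ i) fun x => f (update ω i x) - ap (k i) (fun y => f (update ω i y)) x := by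
  have := res_tS_le (fun i => (h i).nn) hk univ f
  rw [tS_univ] at this
  simpa only [res_tS_one h] using this

/-- a projection with a larger range has a smaller residual. -/
lemma Proj.res_le_of_comp {Ω : Type} [Fintype Ω] [DecidableEq Ω] {μ : Ω → ℝ} {k l : Ω → Ω → ℝ}
    (hμ : ∀ ω, 0 ≤ μ ω) (hk : Proj μ k) (h : comp k l = l) (f : Ω → ℝ) :
    nsq μ (fun ω => f ω - ap k f ω) ≤ nsq μ fun ω => f ω - ap l f ω := by
  have := hk.res_le hμ f (ap l f)
  rwa [← ap_comp, h] at this

end Crest.Agent.N337.Op
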